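import Vale.Agent.P273.H254.Det
import Vale.Agent.P273.H573.Psi
import Vale.Agent.P273.H213.Vmap

/-!
P273, row LIM-VAL: the value of the limit determinant. `TT v` of helper213 on the literal limit
forms of helper573, evaluated with his Psi lemma.
Marks: `Bool × Fin 7`, `true` = A (first seven arguments of `TT v`), `false` = B.
Directions: `Option (Fin 6) × Bool`, `(some c, true)` = size of the cluster `c`,
`(some c, false)` = angle of the cluster `c`, `none` = base directions.
-/

noncomputable section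

namespace Vale.Agent.P273.H254

open MvPolynomial Finset Vale.Agent.P273.H573 Vale.Agent.P273.H213

/-- The relation of the coefficient ring. -/
def plr : RR := X 4 ^ 2 - X 1 * X 2 + X 0 * X 3

/-- The coefficient kills the Pluecker relation. -/
def PlV (v : VV) : Prop := ∀ p : RR, v (plr * p) = 0

/-- The three term relation holds modulo `plr`. -/
theorem pl_three (x y a b : HH) :
    ∃ c : ℝ, pl x y * pl a b - pl x a * pl y b + pl x b * pl y a = plr * C c := by
  refine ⟨-((x 0 * y 1 - x 1 * y 0) * (a 2 * b 3 - a 3 * b 2)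
    - (x 0 * y 2 - x 2 * y 0) * (a 1 * b 3 - a 3 * b 1)
    + (x 0 * y 3 - x 3 * y 0) * (a 1 * b 2 - a 2 * b 1)
    + (x 1 * y 2 - x 2 * y 1) * (a 0 * b 3 - a 3 * b 0)
    - (x 1 * y 3 - x 3 * y 1) * (a 0 * b 2 - a 2 * b 0)
    + (x 2 * y 3 - x 3 * y 2) * (a 0 * b 1 - a 1 * b 0)), ?_⟩
  simp only [pl, plr, map_sub, map_add, map_mul, map_neg]
  ring

/-- The ring in which the three term relation holds. -/
abbrev QR : Type := RR ⧸ Ideal.span {plr}

/-- The class of the bivector. -/
def qpl (x y : HH) : QR := Ideal.Quotient.mk _ (pl x y)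

theorem qpl_swap (x y : HH) : qpl x y = - qpl y x := by
  unfold qpl
  rw [pl_swap y x, map_neg]

theorem qpl_three (x y a b : HH) :
    qpl x y * qpl a b - qpl x a * qpl y b + qpl x b * qpl y a = 0 := by
  obtain ⟨c, hc⟩ := pl_three x y a b
  have h : Ideal.Quotient.mk (Ideal.span {plr}) (pl x y * pl a b - pl x a * pl y b + pl x b * pl y a)
      = 0 := by
    rw [hc, Ideal.Quotient.eq_zero_iff_mem]
    exact Ideal.mul_mem_right _ _ (Ideal.subset_span rfl)
  simpa [qpl] using h

/-- Two polynomials with the same class have the same value. -/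
theorem eq_of_mk_eq {v : VV} (hv : PlV v) {p r : RR}
    (h : (Ideal.Quotient.mk (Ideal.span {plr}) p : QR) = Ideal.Quotient.mk _ r) : v p = v r := by
  rw [Ideal.Quotient.eq, Ideal.mem_span_singleton] at h
  obtain ⟨s, hs⟩ := h
  have h2 : v (p - r) = 0 := by rw [hs]; exact hv s
  rw [map_sub, sub_eq_zero] at h2
  exact h2

/-- **The Psi lemma for `TT v`.** -/
theorem psi_TT {v : VV} (hv : PlV v) (a b : Fin 7 → HH) :
    ∑ S : Fin 7 → Bool, (∏ k, (if S k then (-1 : ℝ) else 1)) *
      TT v (Sum.elim (sl a b S) (sl b a S)) = (Nat.factorial 8 : ℝ) * v (∏ k, pl (a k) (b k)) := by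
  have h1 : ∑ S : Fin 7 → Bool, (∏ k, (if S k then (-1 : ℝ) else 1)) *
      TT v (Sum.elim (sl a b S) (sl b a S)) = v (Psi pl 7 a b) := by
    unfold Psi TS
    rw [map_sum]
    refine Finset.sum_congr rfl fun S _ => ?_
    have h2 : (∏ k, (if S k then (-1 : RR) else 1)) =
        algebraMap ℝ RR (∏ k, (if S k then (-1 : ℝ) else 1)) := by
      rw [map_prod]
      refine Finset.prod_congr rfl fun k _ => ?_
      split_ifs <;> simp
    rw [h2, ← Algebra.smul_def, map_smul, map_sum, TT_apply, smul_eq_mul]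
    rfl
  obtain ⟨N, hN⟩ : ∃ N : ℕ, N = Nat.factorial 8 := ⟨_, rfl⟩
  have h4 : Psi qpl 7 a b = (N : QR) * ∏ k, qpl (a k) (b k) := by
    have h7 := Psi_eq qpl qpl_swap qpl_three 7 a b
    have h8 : (7 + 1).factorial = N := hN.symm
    rewrite [h8] at h7
    exact h7
  rewrite [← hN]
  have h3 : v (Psi pl 7 a b) = v ((N : RR) * ∏ k, pl (a k) (b k)) := by
    apply eq_of_mk_eq hv
    have h5 : (Ideal.Quotient.mk (Ideal.span {plr}) (Psi pl 7 a b) : QR) = Psi qpl 7 a b := by
      have h9 : ∀ S : Fin 7 → Bool, (∏ k, (Ideal.Quotient.mk (Ideal.span {plr})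
          (if S k then (-1 : RR) else 1) : QR)) = ∏ k, (if S k then (-1 : QR) else 1) := fun S =>
        Finset.prod_congr rfl fun k _ => by split_ifs <;> simp
      unfold Psi TS qpl
      simp only [map_sum, map_mul, map_prod, h9]
    rw [h5, h4, map_mul, map_natCast, map_prod]
    rfl
  have h6 : (N : RR) * ∏ k, pl (a k) (b k) = (N : ℝ) • ∏ k, pl (a k) (b k) := by
    rw [Algebra.smul_def, map_natCast]
  rw [h1, h3, h6, map_smul, smul_eq_mul]

/-- `TT v` as a function of the marks: `true` = the first seven arguments. -/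
def TM (v : VV) (x : Bool × Fin 7 → HH) : ℝ :=
  TT v (Sum.elim (fun i => x (true, i)) (fun i => x (false, i)))

theorem TM_zero (v : VV) (x : Bool × Fin 7 → HH) (j : Bool × Fin 7) (h : x j = 0) :
    TM v x = 0 := by
  unfold TM
  rcases j with ⟨_ | _, i⟩
  · exact (TT v).map_coord_zero (Sum.inr i) h
  · exact (TT v).map_coord_zero (Sum.inl i) h

theorem TM_symT (v : VV) : SymT (kd (J := Fin 7)) (TM v) where
  zero := TM_zero v
  symm := by
    rintro x ⟨b, i⟩ ⟨b', j⟩ h
    have hb : b = b' := h
    subst hb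
    have h1 : ∀ (c : Bool) (k : Fin 7), Equiv.swap (b, i) (b, j) (c, k) =
        (c, (if c = b then Equiv.swap i j else 1) k) := by
      intro c k
      by_cases hc : c = b
      · subst hc
        simp only [if_true, Equiv.swap_apply_def, Prod.mk.injEq, true_and]
        split_ifs <;> rfl
      · rw [if_neg hc, Equiv.swap_apply_of_ne_of_ne]
        · rfl
        · intro h; exact hc (congrArg Prod.fst h)
        · intro h; exact hc (congrArg Prod.fst h)
    have h2 := TT_symm v (Sum.elim (fun i => x (true, i)) (fun i => x (false, i)))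
      (if true = b then Equiv.swap i j else 1) (if false = b then Equiv.swap i j else 1)
    unfold TM
    rw [← h2]
    congr 1
    funext k
    rcases k with k | k
    · simp only [Sum.elim_inl, Equiv.sumCongr_apply, Sum.map_inl, h1]
    · simp only [Sum.elim_inr, Equiv.sumCongr_apply, Sum.map_inr, h1]

theorem TM_smul (v : VV) (s : Bool × Fin 7 → ℝ) (x : Bool × Fin 7 → HH) :
    TM v (fun j => s j • x j) = (∏ j, s j) * TM v x := by
  unfold TM
  have h : (Sum.elim (fun i => s (true, i) • x (true, i)) (fun i => s (false, i) • x (false, i))) =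
      fun k : Fin 7 ⊕ Fin 7 => (Sum.elim (fun i => s (true, i)) (fun i => s (false, i)) k) •
        (Sum.elim (fun i => x (true, i)) (fun i => x (false, i)) k : HH) := by
    funext k; rcases k with k | k <;> rfl
  rw [h, MultilinearMap.map_smul_univ, Fintype.prod_sum_type, smul_eq_mul, Fintype.prod_prod_type,
    Fintype.prod_bool]
  rfl

/-- Renaming of the arguments by a location pair. -/
theorem TM_loc (v : VV) (σ : Bool → Fin 7 ≃ Option (Fin 6)) (e0 : Fin 7 ≃ Option (Fin 6))
    (x : Option (Fin 6) → Bool → HH) :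
    TM v (fun j => x (σ j.1 j.2) j.1) =
      TT v (Sum.elim (fun i => x (e0 i) true) (fun i => x (e0 i) false)) := by
  have h2 := TT_symm v (Sum.elim (fun i => x (e0 i) true) (fun i => x (e0 i) false))
      ((σ true).trans e0.symm) ((σ false).trans e0.symm)
  rw [← h2]
  unfold TM
  congr 1
  funext k
  rcases k with k | k <;> simp

/-- **The value on pairs of vectors, one pair for every block.** `D k true`, `D k false` are the
values of the form of the block `k` on its two directions, `s j` a scalar for every mark. -/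
theorem DT_TM {v : VV} (hv : PlV v) {θ : Bool × Fin 7 → Option (Fin 6) × Bool → HH}
    (σ : Bool → Fin 7 ≃ Option (Fin 6))
    (hloc : ∀ b i k b', σ b i ≠ some k → θ (b, i) (some k, b') = 0)
    (D : Option (Fin 6) → Bool → HH) (s : Bool × Fin 7 → ℝ)
    (hθ : ∀ b i b', θ (b, i) (σ b i, b') = s (b, i) • D (σ b i) b')
    (e : Bool × Fin 7 ≃ Option (Fin 6) × Bool) :
    DT (TM v) θ e = sgn σ e • ((∏ j, s j) * ((Nat.factorial 8 : ℝ) *
      v (∏ k, pl (D k true) (D k false)))) := by
  rw [DT_eval_bits (TM_zero v) none σ (fun b i k b' hk hne => by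
    obtain ⟨k', rfl⟩ := Option.ne_none_iff_exists'.1 hk
    exact hloc b i k' b' hne) e]
  refine congrArg (sgn σ e • ·) ?_
  obtain ⟨e0⟩ : Nonempty (Fin 7 ≃ Option (Fin 6)) := ⟨σ true⟩
  have h1 : ∀ c : Option (Fin 6) → Bool,
      TM v (fun j => θ j (σ j.1 j.2, xor (c (σ j.1 j.2)) j.1)) =
      (∏ j, s j) * TT v (Sum.elim (sl (fun i => D (e0 i) true) (fun i => D (e0 i) false)
        (fun i => c (e0 i))) (sl (fun i => D (e0 i) false) (fun i => D (e0 i) true)
        (fun i => c (e0 i)))) := by
    intro c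
    have h2 : (fun j : Bool × Fin 7 => θ j (σ j.1 j.2, xor (c (σ j.1 j.2)) j.1)) =
        fun j => s j • D (σ j.1 j.2) (xor (c (σ j.1 j.2)) j.1) := by
      funext j; exact hθ j.1 j.2 _
    rw [h2, TM_smul, TM_loc v σ e0 (fun k b => D k (xor (c k) b))]
    congr 2
    funext k
    rcases k with k | k
    · simp only [Sum.elim_inl, sl]
      cases c (e0 k) <;> rfl
    · simp only [Sum.elim_inr, sl]
      cases c (e0 k) <;> rfl
  have h3 : ∀ c : Option (Fin 6) → Bool, (∏ k, if c k then (-1 : ℤˣ) else 1) •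
        TM v (fun j => θ j (σ j.1 j.2, xor (c (σ j.1 j.2)) j.1)) = (∏ j, s j) *
      ((∏ i : Fin 7, (if c (e0 i) then (-1 : ℝ) else 1)) *
        TT v (Sum.elim (sl (fun i => D (e0 i) true) (fun i => D (e0 i) false)
        (fun i => c (e0 i))) (sl (fun i => D (e0 i) false) (fun i => D (e0 i) true)
        (fun i => c (e0 i))))) := by
    intro c
    rw [h1 c, Units.smul_def, zsmul_eq_mul, Units.coe_prod, Int.cast_prod,
      ← Equiv.prod_comp e0]
    have h4 : (∏ i : Fin 7, (((if c (e0 i) then (-1 : ℤˣ) else 1 : ℤˣ) : ℤ) : ℝ)) =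
        ∏ i : Fin 7, (if c (e0 i) then (-1 : ℝ) else 1) :=
      Finset.prod_congr rfl fun i _ => by split_ifs <;> simp
    rw [h4]
    ring
  simp only [h3]
  rw [← Finset.mul_sum]
  refine congrArg ((∏ j, s j) * ·) ?_
  rw [← Equiv.prod_comp e0 (fun k => pl (D k true) (D k false)), ← psi_TT hv]
  refine Fintype.sum_equiv (e0.symm.arrowCongr (Equiv.refl Bool)) _ _ fun c => ?_
  have h5 : (e0.symm.arrowCongr (Equiv.refl Bool)) c = fun i => c (e0 i) := by
    funext i; simp
  rw [h5]

/-! ## The literal limit forms -/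

/-- The classes `m_k` (coefficients of the angle of the neck `k`). -/
def mv : Fin 3 → HH := ![![1, 0, 0, 0], ![-1, 0, -1, 0], ![0, 0, 1, 0]]

/-- The classes `t_k` (potential of the middle of the neck `k`). -/
def tv : Fin 3 → HH := ![![0, 1, 0, 0], 0, ![0, 0, 0, 1]]

/-- The bivector `(lam - t_k) ^ m_k`. -/
def Ak (lam : HH) (k : Fin 3) : RR := pl (lam - tv k) (mv k)

/-- The vectors of the blocks. -/
def Dv (kp : Fin 6 → Fin 3) (y : Fin 3 → ℝ) (tt mm : Fin 3 → HH) (lam : HH) (dl : Bool → HH) :
    Option (Fin 6) → Bool → HH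
  | some c, true => (2 / y (kp c)) • (tt (kp c) - lam)
  | some c, false => Real.pi⁻¹ • mm (kp c)
  | none, b => dl b

/-- **LIM-VAL, any classes `tt`, `mm`.** -/
theorem limval' {v : VV} (hv : PlV v) (kp : Fin 6 → Fin 3) (y : Fin 3 → ℝ) (tt mm : Fin 3 → HH)
    (lam : HH) (dl : Bool → HH) (s : Bool → ℝ)
    {θ : Bool × Fin 7 → Option (Fin 6) × Bool → HH} (σ : Bool → Fin 7 ≃ Option (Fin 6))
    (hloc : ∀ b i k b', σ b i ≠ some k → θ (b, i) (some k, b') = 0)
    (hS : ∀ b i c, σ b i = some c → θ (b, i) (some c, true) = (2 / y (kp c)) • (tt (kp c) - lam))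
    (hT : ∀ b i c, σ b i = some c → θ (b, i) (some c, false) = Real.pi⁻¹ • mm (kp c))
    (hc : ∀ b i b', σ b i = none → θ (b, i) (none, b') = s b • dl b')
    (e : Bool × Fin 7 ≃ Option (Fin 6) × Bool) :
    DT (TM v) θ e = sgn σ e • (s true * s false * (Nat.factorial 8 : ℝ) *
      (∏ c, 2 / (Real.pi * y (kp c))) *
      v (pl (dl true) (dl false) * ∏ k : Fin 3, pl (lam - tt k) (mm k) ^ #{c | kp c = k})) := by
  rw [DT_TM hv σ hloc (Dv kp y tt mm lam dl) (fun j => if σ j.1 j.2 = none then s j.1 else 1) ?_ e]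
  · refine congrArg (sgn σ e • ·) ?_
    have h1 : (∏ j : Bool × Fin 7, if σ j.1 j.2 = none then s j.1 else 1) = s true * s false := by
      rw [Fintype.prod_prod_type, Fintype.prod_bool]
      have h2 : ∀ b, (∏ i : Fin 7, if σ b i = none then s b else 1) = s b := fun b => by
        rw [Equiv.prod_comp (σ b) (fun k => if k = none then s b else 1)]
        simp
      rw [h2, h2]
    have h3 : (∏ k, pl (Dv kp y tt mm lam dl k true) (Dv kp y tt mm lam dl k false)) =
        (∏ c, 2 / (Real.pi * y (kp c))) • (pl (dl true) (dl false) *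
          ∏ k : Fin 3, pl (lam - tt k) (mm k) ^ #{c | kp c = k}) := by
      rw [Fintype.prod_option]
      have h4 : ∀ c : Fin 6, pl (Dv kp y tt mm lam dl (some c) true)
          (Dv kp y tt mm lam dl (some c) false) =
          (2 / (Real.pi * y (kp c))) • (-(pl (lam - tt (kp c)) (mm (kp c)))) := by
        intro c
        change pl ((2 / y (kp c)) • (tt (kp c) - lam)) (Real.pi⁻¹ • mm (kp c)) = _
        rw [pl_smul_left, pl_smul_right, smul_smul, ← neg_sub lam (tt (kp c)),
          ← neg_one_smul ℝ (lam - tt (kp c)), pl_smul_left, neg_one_smul]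
        congr 1
        rw [div_mul_eq_div_div, div_eq_mul_inv, div_eq_mul_inv, div_eq_mul_inv]
        ring
      have h5 : (∏ c : Fin 6, pl (lam - tt (kp c)) (mm (kp c))) =
          ∏ k : Fin 3, pl (lam - tt k) (mm k) ^ #{c | kp c = k} := by
        rw [← Finset.prod_fiberwise univ kp]
        refine Finset.prod_congr rfl fun k _ => ?_
        rw [← Finset.prod_const]
        refine Finset.prod_congr rfl fun c hc => ?_
        rw [(Finset.mem_filter.1 hc).2]
      have h6 : (∏ c : Fin 6, pl (Dv kp y tt mm lam dl (some c) true)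
          (Dv kp y tt mm lam dl (some c) false)) = (∏ c, 2 / (Real.pi * y (kp c))) •
          ∏ k : Fin 3, pl (lam - tt k) (mm k) ^ #{c | kp c = k} := by
        rw [← h5, Finset.prod_congr rfl fun c _ => h4 c]
        simp only [Algebra.smul_def]
        rw [Finset.prod_mul_distrib, ← map_prod]
        congr 1
        rw [Finset.prod_neg, Finset.card_univ, Fintype.card_fin,
          Even.neg_one_pow (show Even 6 by decide), one_mul]
      rw [h6]
      change pl (dl true) (dl false) * _ = _
      rw [mul_smul_comm]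
    rw [h1, h3, map_smul, smul_eq_mul]
    ring
  · rintro b i b'
    simp only
    rcases h : σ b i with _ | c
    · rw [if_pos rfl, hc b i b' h]
      rfl
    · rw [if_neg (by simp), one_smul]
      cases b'
      · exact hT b i c h
      · exact hS b i c h

/-- **LIM-VAL with the literal classes.** -/
theorem limval {v : VV} (hv : PlV v) (kp : Fin 6 → Fin 3) (y : Fin 3 → ℝ)
    (lam : HH) (dl : Bool → HH) (s : Bool → ℝ)
    {θ : Bool × Fin 7 → Option (Fin 6) × Bool → HH} (σ : Bool → Fin 7 ≃ Option (Fin 6))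
    (hloc : ∀ b i k b', σ b i ≠ some k → θ (b, i) (some k, b') = 0)
    (hS : ∀ b i c, σ b i = some c → θ (b, i) (some c, true) = (2 / y (kp c)) • (tv (kp c) - lam))
    (hT : ∀ b i c, σ b i = some c → θ (b, i) (some c, false) = Real.pi⁻¹ • mv (kp c))
    (hc : ∀ b i b', σ b i = none → θ (b, i) (none, b') = s b • dl b')
    (e : Bool × Fin 7 ≃ Option (Fin 6) × Bool) :
    DT (TM v) θ e = sgn σ e • (s true * s false * (Nat.factorial 8 : ℝ) *
      (∏ c, 2 / (Real.pi * y (kp c))) *
      v (pl (dl true) (dl false) * ∏ k : Fin 3, Ak lam k ^ #{c | kp c = k})) :=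
  limval' hv kp y tv mv lam dl s σ hloc hS hT hc e

/-! ## Weights: for the coefficients of the tori only the classes modulo `M = <e1, e2>` count -/

/-- The weight of a variable: the number of factors in `M`. -/
def wM : Fin 5 → ℕ := ![2, 1, 1, 0, 1]

/-- The coefficient kills every monomial of degree 7 with at least `n` factors in `M`. -/
def KillM (n : ℕ) (v : VV) : Prop :=
  ∀ d : Fin 5 →₀ ℕ, ∑ i, d i = 7 → n ≤ ∑ i, wM i * d i → v (monomial d 1) = 0

theorem kill_of_hom {n m : ℕ} {v : VV} (hv : KillM n v) {p : RR} (hp : p.IsHomogeneous 7)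
    (hm : p.IsWeightedHomogeneous wM m) (hnm : n ≤ m) : v p = 0 := by
  rw [p.as_sum, map_sum]
  refine Finset.sum_eq_zero fun d hd => ?_
  have h0 : coeff d p ≠ 0 := MvPolynomial.mem_support_iff.1 hd
  have h1 : ∑ i, d i = 7 := by
    have := hp h0
    rw [Finsupp.weight_apply, Finsupp.sum_fintype _ _ (by simp)] at this
    simpa using this
  have h2 : ∑ i, wM i * d i = m := by
    have := hm h0
    rw [Finsupp.weight_apply, Finsupp.sum_fintype _ _ (by simp)] at this
    simpa [mul_comm] using this
  have h3 : monomial d (coeff d p) = coeff d p • monomial d (1 : ℝ) := by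
    rw [smul_monomial, smul_eq_mul, mul_one]
  rw [h3, map_smul, hv d h1 (by omega), smul_zero]

end Vale.Agent.P273.H254
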