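import Vale.Agent.P273.H254.ValT
import Vale.Agent.P273.H93.DictEnc
import Vale.Agent.P273.H539.SubY

/-!
P273, (S7) of helper573's skeleton: the coefficients of the tori and the annuli.
-/

noncomputable section

namespace Vale.Agent.P273.H254

open Finset Vale.Agent.P273.H213 Vale.Agent.P273.H95 Vale.Agent.P273.H728 Vale.Agent.P273.H93
open Vale.Agent.P273.H573 hiding cmp

/-- Change of the directions: clusters by their numbers. -/
theorem DT_dirs (T : MT) {K : Type*} (θ : L → K × Bool → H4) (E : Fin 7 ≃ K)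
    (F : Option (Fin 6) ≃ K) :
    DT (fun x => T x) (fun i => θ (mrk i))
      (fun i : Fin 14 => (E ⟨i / 2, by omega⟩, decide ((i : ℕ) % 2 = 1))) =
    DT (TMk T) (fun (j : Bool × Fin 7) (d : Option (Fin 6) × Bool) => θ (j.2, j.1) (F d.1, d.2))
      (es (E.trans F.symm)) := by
  rw [DT_reindex sm]
  unfold DT TMk
  refine Finset.sum_congr rfl fun π _ => ?_
  refine congrArg (fun z => Equiv.Perm.sign π • z) (congrArg (fun z : Fin 14 → H4 => T z) ?_)
  funext i
  change θ (mrk (sm.symm (sm i))) _ = θ _ _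
  rw [mrk_sm, Equiv.apply_symm_apply]
  refine congrArg (θ _) ?_
  simp [es, pr]

section

variable {p q : ℕ} {e : Bool → Bool} {f : Fin 6 → Bool} {loc : Bool → Option (Fin 3)} {o : Bool}
  (hp : p ≤ q) (hq : q ≤ 6) (σ : Bool → Equiv.Perm (Fin 7))

theorem enc_cmp_iff (h9 : ∑ k, ((enc f o hp hq σ e loc).B k).card = 9) (b : Bool) (i : Fin 7)
    (c : Fin 6) : finSuccEquivLast (σ b i) = some c ↔
      H573.cmp (rg (enc f o hp hq σ e loc)) (gB (enc f o hp hq σ e loc)) (i, b) =
        Sum.inr ((clE h9 c).1.1, ((clE h9 c).1.2 : ℕ)) := by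
  rw [← lcl_some h9, lcl_eq, RB.enc_loc]
  simp

/-- **The value of `T` on the clusters and the base** on a good region. -/
theorem DTc_enc {w : VV} (hw : PlV w) (n : ℕ) (fl : Bool → Bool)
    (hn : (univ.filter fun d => tD fl d = true).card = n) (y : Fin 3 → ℝ) (l : Bool → HH)
    (hl : ∀ b, Pure (fl b) (l b)) :
    DTc (rg (enc f o hp hq σ e loc)) (H503.mtV w) n (gB (enc f o hp hq σ e loc)) y l =
      -((H93.sgn σ : ℝ) * (sge e * (Nat.factorial 8 : ℝ) *
        (∏ k, (2 / (Real.pi * y k)) ^ len p q k) *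
        w (pl (l false) (l true) *
          ∏ k : Fin 3, pl (H573.lamV y - H25.tt k) (H25.mm k) ^ len p q k))) := by
  have h9 := enc_nine (f := f) (o := o) (e := e) (loc := loc) hp hq σ
  have hcard : ∀ k, #{c | (enc f o hp hq σ e loc).kp c = k} = len p q k := by
    intro k
    rw [RB.card_kp h9 k, enc_B_card]
    rfl
  rw [DTc, dif_pos (card_cl h9)]
  rw [DT_dirs (grT n (H503.mtV w)) (lgC (rg (enc f o hp hq σ e loc))
    (gB (enc f o hp hq σ e loc)) y l) _ (clE h9).optionCongr]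
  rw [DT_val hw n fl hn (fun c => (enc f o hp hq σ e loc).kp c) y (H573.lamV y) (pure_lamV y) l hl
    (fun b => if e b then -1 else 1) (fun b => (σ b).trans finSuccEquivLast)]
  · rw [sgn_es_perm]
    simp only [hcard]
    have h1 : (∏ c, 2 / (Real.pi * y ((enc f o hp hq σ e loc).kp c))) =
        ∏ k, (2 / (Real.pi * y k)) ^ len p q k := by
      rw [← prod_kp (fun c => (enc f o hp hq σ e loc).kp c) fun k => 2 / (Real.pi * y k)]
      exact Finset.prod_congr rfl fun k _ => by rw [hcard k]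
    rw [h1]
    have h2 : (if e true then (-1 : ℝ) else 1) * (if e false then (-1 : ℝ) else 1) = sge e := by
      unfold sge
      cases e true <;> cases e false <;> simp
    rw [h2, H93.sgn]
    push_cast
    rw [Units.smul_def, Units.val_mul, zsmul_eq_mul]
    push_cast
    ring
  · intro b i k b' h
    exact if_neg fun h1 => h ((enc_cmp_iff hp hq σ h9 b i k).2 h1)
  · intro b i c h
    exact if_pos ((enc_cmp_iff hp hq σ h9 b i c).1 h)
  · intro b i c h
    exact if_pos ((enc_cmp_iff hp hq σ h9 b i c).1 h)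
  · intro b i b' h
    have h1 : H573.cmp (rg (enc f o hp hq σ e loc)) (gB (enc f o hp hq σ e loc)) (i, b) =
        Sum.inl (e b) := by
      refine cmp_enc_none hp hq σ ?_
      rw [lcl_eq, RB.enc_loc]
      have h2 : finSuccEquivLast (σ b i) = none := h
      rw [h2]
      rfl
    change (match H573.cmp (rg (enc f o hp hq σ e loc)) (gB (enc f o hp hq σ e loc)) (i, b) with
      | Sum.inl s => (if s then (-1 : ℝ) else 1) • l b'
      | Sum.inr _ => 0) = _
    rw [h1]

/-! ## The tori -/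

theorem sum_len (hp : p ≤ q) (hq : q ≤ 6) : ∑ k, len p q k = 6 := by
  rw [Fin.sum_univ_three]
  change p + (q - p) + (6 - q) = 6
  omega

/-- volume times the factors of the clusters -/
theorem vol_mul (y : Fin 3 → ℝ) (hy : ∀ k, y k ≠ 0) :
    (2 * Real.pi) ^ 6 * vol (rg (enc f o hp hq σ e loc)) (gB (enc f o hp hq σ e loc)) y *
      (∏ k, (2 / (Real.pi * y k)) ^ len p q k) = 4096 / H25.fac (len p q) := by
  have hpi := Real.pi_ne_zero
  have h1 : ∀ k, y k ^ len p q k / ((len p q k).factorial : ℝ) *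
      (2 / (Real.pi * y k)) ^ len p q k =
      (2 / Real.pi) ^ len p q k * (1 / ((len p q k).factorial : ℝ)) := by
    intro k
    rw [show 2 / (Real.pi * y k) = (2 / Real.pi) * (y k)⁻¹ by
      rw [div_mul_eq_div_div, div_eq_mul_inv (2 / Real.pi)], mul_pow, inv_pow]
    have h2 : y k ^ len p q k ≠ 0 := pow_ne_zero _ (hy k)
    field_simp
  unfold vol
  simp only [crd_enc, Nat.add_sub_cancel]
  rw [mul_assoc, ← Finset.prod_mul_distrib, Finset.prod_congr rfl fun k _ => h1 k,
    Finset.prod_mul_distrib, Finset.prod_pow_eq_pow_sum, sum_len hp hq, ← mul_assoc, ← mul_pow,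
    Finset.prod_div_distrib, Finset.prod_const_one, H25.fac,
    show 2 * Real.pi * (2 / Real.pi) = 4 by field_simp; norm_num]
  norm_num
  rw [div_eq_mul_inv]

theorem lamV_yT : H573.lamV (yT 1) = H25.lam0 := by
  unfold H573.lamV H25.lam0 yT
  rw [Fin.sum_univ_three (fun k => ((1 : ℝ) / 1) • H25.tt k)]
  simp only [Finset.sum_const, Finset.card_univ, Fintype.card_fin, div_one, one_smul, nsmul_eq_mul,
    mul_one, Nat.cast_ofNat]
  norm_num

theorem dlA_yT (l : Fin 3) : (-2 * Real.pi) • dlA (yT 1) l = (1 / 3 : ℝ) • H25.mm l := by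
  have hpi := Real.pi_ne_zero
  unfold dlA yT
  rw [smul_smul]
  congr 1
  simp only [Finset.sum_const, Finset.card_univ, Fintype.card_fin, div_one, nsmul_eq_mul,
    mul_one, Nat.cast_ofNat]
  field_simp

/-- **(S7b)** -/
theorem cofT_enc {w : VV} (hw : PlV w) (i j : Fin 3) :
    cofT (rg (enc f o hp hq σ e loc)) (H503.mtV w) (gB (enc f o hp hq σ e loc)) i j =
      KL * H25.torC i j w ![p, q - p, 6 - q] * ((H93.sgn σ : ℝ) * sge e) := by
  have h0 := vol_mul (f := f) (o := o) (e := e) (loc := loc) hp hq σ (yT 1)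
    (fun k => one_ne_zero)
  unfold cofT
  rw [DTc_enc hp hq σ hw 6 (fun _ => false) card_tD_torus (yT 1) _ (fun b => by
    rw [dlA_yT]
    exact (pure_mm _).smul _), lamV_yT, dlA_yT, dlA_yT]
  simp only [Bool.false_eq_true, if_false, if_true]
  have h1 : w (pl ((1 / 3 : ℝ) • H25.mm i) ((1 / 3 : ℝ) • H25.mm j) *
      ∏ k : Fin 3, pl (H25.lam0 - H25.tt k) (H25.mm k) ^ len p q k) =
      1 / 9 * w (pl (H25.mm i) (H25.mm j) * H25.bub H25.lam0 (len p q)) := by
    rw [pl_smul_left, pl_smul_right, smul_smul, smul_mul_assoc, map_smul, smul_eq_mul]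
    norm_num
    rfl
  rw [h1]
  have h2 : H25.torC i j w ![p, q - p, 6 - q] =
    (1 / 9) * w (pl (H25.mm i) (H25.mm j) * H25.bub H25.lam0 (len p q)) / H25.fac (len p q) := rfl
  rw [h2, KL]
  rw [div_eq_mul_inv] at h0 ⊢
  linear_combination (-((H93.sgn σ : ℝ) * sge e * (Nat.factorial 8 : ℝ) *
    (1 / 9 * w (pl (H25.mm i) (H25.mm j) * H25.bub H25.lam0 (len p q))))) * h0

/-! ## The annuli -/

theorem yA_sum (i : Fin 3) {Y : ℝ} (hY : 1 < Y) : ∑ k, 1 / yA i 1 Y k = (1 + 2 * Y) / Y := by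
  have : Y ≠ 0 := by positivity
  rw [Fin.sum_univ_three]
  fin_cases i <;> simp [yA] <;> field_simp <;> ring

theorem lamV_yA (i : Fin 3) {Y : ℝ} (hY : 1 < Y) :
    H573.lamV (yA i 1 Y) = H25.lam i (1 / (1 + 2 * Y)) := by
  have h0 : Y ≠ 0 := by positivity
  have h1 : 1 + 2 * Y ≠ 0 := by positivity
  unfold H573.lamV H25.lam H25.mid
  rw [yA_sum i hY, Fin.sum_univ_three]
  funext a
  fin_cases i <;> simp [yA] <;> field_simp <;> ring

theorem dlY_yA (i : Fin 3) {Y : ℝ} (hY : 1 < Y) :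
    dlY (yA i 1 Y) i = (2 / (1 + 2 * Y) ^ 2) • (H25.mid i - H25.tt i) := by
  have h0 : Y ≠ 0 := by positivity
  have h1 : 1 + 2 * Y ≠ 0 := by positivity
  unfold dlY
  rw [yA_sum i hY, lamV_yA i hY, H25.lam]
  funext a
  simp [yA]
  field_simp
  ring

theorem dlA_yA (i : Fin 3) {Y : ℝ} (hY : 1 < Y) :
    (-2 * Real.pi) • dlA (yA i 1 Y) i = (1 / (1 + 2 * Y)) • H25.mm i := by
  have h0 : Y ≠ 0 := by positivity
  have h1 : 1 + 2 * Y ≠ 0 := by positivity
  have hpi := Real.pi_ne_zero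
  unfold dlA
  rw [yA_sum i hY, smul_smul]
  congr 1
  simp [yA]
  field_simp

/-- the substitution of helper539, any integrand -/
theorem integral_subY' (f : ℝ → ℝ) :
    ∫ y in Set.Ioi (1 : ℝ), 2 / (1 + 2 * y) ^ 2 * f (1 / (1 + 2 * y)) =
      ∫ t in (0 : ℝ)..(1 / 3), f t := by
  have h := MeasureTheory.integral_image_eq_integral_abs_deriv_smul (s := Set.Ioi (1 : ℝ))
    measurableSet_Ioi (fun y hy => (H539.ty_hasDerivAt (Set.mem_Ioi.1 hy)).hasDerivWithinAt)
    H539.ty_inj f
  rw [H539.ty_image] at h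
  rw [intervalIntegral.integral_of_le (by norm_num), MeasureTheory.integral_Ioc_eq_integral_Ioo, h]
  refine MeasureTheory.setIntegral_congr_fun measurableSet_Ioi (fun y hy => ?_)
  have hy' : (1 : ℝ) < y := hy
  have : (0 : ℝ) ≤ 2 / (1 + 2 * y) ^ 2 := by positivity
  simp only [abs_neg, abs_of_nonneg this, smul_eq_mul, H539.ty]

/-- **(S7c)** -/
theorem cofA_enc {v : VV} (hv : PlV v) (i : Fin 3) :
    cofA (rg (enc f o hp hq σ e loc)) (H503.mtV v) (gB (enc f o hp hq σ e loc)) i =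
      KL * H25.annC i v ![p, q - p, 6 - q] * ((H93.sgn σ : ℝ) * sge e) := by
  have h2 : H25.annC i v ![p, q - p, 6 - q] = ∫ t in (0 : ℝ)..(1 / 3),
    t * v (pl (H25.mid i - H25.tt i) (H25.mm i) * H25.bub (H25.lam i t) (len p q)) /
      H25.fac (len p q) := rfl
  rw [h2, ← integral_subY', mul_comm KL, mul_assoc, mul_comm _ (KL * _),
    ← MeasureTheory.integral_const_mul]
  unfold cofA
  refine MeasureTheory.setIntegral_congr_fun measurableSet_Ioi (fun Y hY => ?_)
  have hY' : (1 : ℝ) < Y := hY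
  have h0 := vol_mul (f := f) (o := o) (e := e) (loc := loc) hp hq σ (yA i 1 Y) (fun k => by
    unfold yA
    split_ifs <;> positivity)
  rw [DTc_enc hp hq σ hv 7 (fun b => !b) card_tD_annulus (yA i 1 Y) _ (fun b => ?_),
    lamV_yA i hY']
  · simp only [Bool.false_eq_true, if_false, if_true]
    rw [dlY_yA i hY', dlA_yA i hY']
    have h1 : v (pl ((2 / (1 + 2 * Y) ^ 2) • (H25.mid i - H25.tt i))
        ((1 / (1 + 2 * Y)) • H25.mm i) *
        ∏ k : Fin 3, pl (H25.lam i (1 / (1 + 2 * Y)) - H25.tt k) (H25.mm k) ^ len p q k) =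
        2 / (1 + 2 * Y) ^ 2 * (1 / (1 + 2 * Y)) * v (pl (H25.mid i - H25.tt i) (H25.mm i) *
          H25.bub (H25.lam i (1 / (1 + 2 * Y))) (len p q)) := by
      rw [pl_smul_left, pl_smul_right, smul_smul, smul_mul_assoc, map_smul, smul_eq_mul]
      rfl
    rw [h1, KL]
    rw [div_eq_mul_inv _ (H25.fac (len p q))] at h0 ⊢
    linear_combination (-((H93.sgn σ : ℝ) * sge e * (Nat.factorial 8 : ℝ) *
      (2 / (1 + 2 * Y) ^ 2 * (1 / (1 + 2 * Y)) * v (pl (H25.mid i - H25.tt i) (H25.mm i) *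
          H25.bub (H25.lam i (1 / (1 + 2 * Y))) (len p q))))) * h0
  · cases b
    · simp only [Bool.false_eq_true, if_false, Bool.not_false]
      rw [dlY_yA i hY']
      unfold H25.mid
      exact (((((pure_tt 0).add (pure_tt 1)).add (pure_tt 2)).sub (pure_tt i)).smul _ |>.sub
        (pure_tt i)).smul _
    · simp only [if_true, Bool.not_true]
      rw [dlA_yA i hY']
      exact (pure_mm _).smul _

end

end Vale.Agent.P273.H254
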