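import Vale.Agent.P273.H573.Skel2
import Vale.Agent.P273.H254.ValD

/-!
P273, (S7b), (S7c): the values on the good pieces.
-/

noncomputable section

namespace Vale.Agent.P273.H254

theorem valTP : H573.ValTP := fun _ _ hp hq σ _ _ _ _ hw i j _ => cofT_enc hp hq σ hw i j

theorem valAP : H573.ValAP := fun _ _ hp hq σ _ _ _ _ hv i => cofA_enc hp hq σ hv i

end Vale.Agent.P273.H254
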