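import Vale.Agent.P273.H254.Frame
import Vale.Agent.P273.H213.Wt
import Vale.Agent.P273.H562.AsyDefs

/-!
P273, row LimVal, part 2: the coefficient. Vectors of the limit legs of helper562 and the values
of the coefficients on tori and annuli.
-/

noncomputable section

namespace Vale.Agent.P273.H254

open MvPolynomial Finset Vale.Agent.P273.H573 Vale.Agent.P273.H213

/-- The weights of helper213. -/
theorem killM_of_wt {n : ℕ} {v : VV} (hv : Wt n v) : KillM n v := fun d _ hd => by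
  refine hv d ?_
  have h : wd d = ∑ i, wM i * d i := by
    unfold wd H213.ww wM
    exact Finset.sum_congr rfl fun i _ => mul_comm _ _
  rw [h]
  exact hd

/-- **Annuli**: only one base vector in `M`. -/
theorem annulus_mod {v : VV} (hv : KillM 8 v) {d0 d1 : HH} (h1 : InM d1)
    (x m : Fin 6 → HH) (hm : ∀ c, InM (m c)) :
    v (pl d0 d1 * ∏ c, pl (x c) (m c)) = v (pl (Lp d0) d1 * ∏ c, pl (Lp (x c)) (m c)) := by
  classical
  have h2 : ∏ c, pl (x c) (m c) = ∏ c, (pl (Lp (x c)) (m c) + pl (Mp (x c)) (m c)) :=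
    Finset.prod_congr rfl fun c _ => by rw [← pl_add_left, Lp_add_Mp]
  have hcard : ∀ t : Finset (Fin 6), t.card + (univ \ t).card = 6 := fun t => by
    have := Finset.card_sdiff_add_card_eq_card (Finset.subset_univ t)
    rw [Finset.card_univ, Fintype.card_fin] at this
    omega
  -- the terms
  have key : ∀ (a : HH) (w : ℕ) (t : Finset (Fin 6)), (pl a d1).IsWeightedHomogeneous wM w →
      8 ≤ w + 6 + (univ \ t).card →
      v (pl a d1 * ((∏ c ∈ t, pl (Lp (x c)) (m c)) * ∏ c ∈ univ \ t, pl (Mp (x c)) (m c))) = 0 := by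
    intro a w t ha hw
    refine kill_of_hom (m := w + (∑ c ∈ t, 1 + ∑ c ∈ univ \ t, 2)) hv ?_ ?_ ?_
    · have h3 := (pl_hom a d1).mul ((IsHomogeneous.prod t _ (fun _ => 1)
        fun c _ => pl_hom (Lp (x c)) (m c)).mul (IsHomogeneous.prod (univ \ t) _ (fun _ => 1)
        fun c _ => pl_hom (Mp (x c)) (m c)))
      have h4 : 1 + (∑ _c ∈ t, 1 + ∑ _c ∈ univ \ t, 1) = 7 := by
        have := hcard t
        simp only [Finset.sum_const, smul_eq_mul, mul_one]
        omega
      rw [h4] at h3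
      exact h3
    · exact ha.mul ((IsWeightedHomogeneous.prod t _ _
        fun c _ => pl_wt_LM (x c) (hm c)).mul (IsWeightedHomogeneous.prod (univ \ t) _ _
        fun c _ => pl_wt_MM (inM_Mp (x c)) (hm c)))
    · have := hcard t
      simp only [Finset.sum_const, smul_eq_mul, mul_one]
      omega
  have h3 : v (pl d0 d1 * ∏ c, pl (x c) (m c)) =
      v (pl (Lp d0) d1 * ∏ c, pl (x c) (m c)) := by
    conv_lhs => rw [← Lp_add_Mp d0, pl_add_left, add_mul, map_add]
    rw [add_eq_left, h2, Finset.prod_add, Finset.mul_sum, map_sum]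
    exact Finset.sum_eq_zero fun t _ => key _ 2 t (pl_wt_MM (inM_Mp d0) h1) (by omega)
  rw [h3, h2, Finset.prod_add, Finset.mul_sum, map_sum,
    Finset.sum_eq_single_of_mem (univ : Finset (Fin 6)) (Finset.mem_powerset.2 subset_rfl)]
  · rw [Finset.sdiff_self, Finset.prod_empty, mul_one]
  · intro t _ ht
    have hc : 1 ≤ (univ \ t).card := by
      rw [Nat.one_le_iff_ne_zero, Ne, Finset.card_eq_zero, Finset.sdiff_eq_empty_iff_subset]
      intro h
      exact ht (Finset.eq_univ_iff_forall.2 fun c => h (Finset.mem_univ c))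
    exact key _ 1 t (pl_wt_LM d0 h1) (by omega)

/-! ## The vectors of the limit legs -/

section Vec

variable (κ : Fin 3 → Fin 3 → ℝ)

/-- difference of the two numbers of the pair -/
def btV (k : Fin 3) : HH := fun a => H562.bt (H95.col4 a) k
/-- `g_k` -/
def ggV (α : Fin 3 → ℝ) (k : Fin 3) : HH := fun a => H562.gg κ (H95.col4 a) α k
/-- `lam` -/
def lamV (y α : Fin 3 → ℝ) : HH := fun a => H562.lam κ (H95.col4 a) y α
/-- derivative of `lam` in the angle -/
def lamAV (y : Fin 3 → ℝ) (l : Fin 3) : HH := fun a => H562.lamA (H95.col4 a) y l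
/-- derivative of `lam` in the size -/
def lamYV (y α : Fin 3 → ℝ) (l : Fin 3) : HH := fun a => H562.lamY κ (H95.col4 a) y α l

/-- The mean of the classes `t_k` with the weights `1 / y_k`. -/
def lam0 (y : Fin 3 → ℝ) : HH := (∑ k, 1 / y k)⁻¹ • ∑ k, (1 / y k) • tv k

theorem btV_eq (k : Fin 3) : btV k = -mv k := by
  funext a
  fin_cases k <;> fin_cases a <;> simp [btV, H562.bt, H95.col4, mv]

theorem inM_btV (k : Fin 3) : InM (btV k) := by
  rw [btV_eq, ← neg_one_smul ℝ (mv k)]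
  exact inM_smul _ (inM_mv k)

theorem lamAV_eq (y : Fin 3 → ℝ) (l : Fin 3) :
    lamAV y l = (-(1 / (2 * Real.pi) / y l / ∑ k, 1 / y k)) • mv l := by
  have h := btV_eq l
  funext a
  have h1 : H562.bt (H95.col4 a) l = -mv l a := congrFun h a
  simp only [lamAV, H562.lamA, h1, Pi.smul_apply, smul_eq_mul]
  ring

theorem Lp_apply_ggV (α : Fin 3 → ℝ) (k : Fin 3) : Lp (ggV κ α k) = tv k := by
  funext a
  fin_cases k <;> fin_cases a <;>
    simp [Lp, ggV, H562.gg, H562.xe, H562.bt, H95.col4, tv, Fin.sum_univ_three]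

theorem Lp_sub (x y : HH) : Lp (x - y) = Lp x - Lp y := by
  funext a; fin_cases a <;> simp [Lp]

theorem Lp_smul (c : ℝ) (x : HH) : Lp (c • x) = c • Lp x := by
  funext a; fin_cases a <;> simp [Lp]

theorem Lp_add (x y : HH) : Lp (x + y) = Lp x + Lp y := by
  funext a; fin_cases a <;> simp [Lp]

theorem Lp_tv (k : Fin 3) : Lp (tv k) = tv k := by
  funext a; fin_cases k <;> fin_cases a <;> simp [Lp, tv]

theorem lamV_eq (y α : Fin 3 → ℝ) :
    lamV κ y α = (∑ k, 1 / y k)⁻¹ • ∑ k, (1 / y k) • ggV κ α k := by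
  funext a
  simp only [lamV, H562.lam, ggV, Pi.smul_apply, Finset.sum_apply, smul_eq_mul]
  rw [div_eq_inv_mul]
  congr 1
  exact Finset.sum_congr rfl fun k _ => by ring

theorem Lp_sum (f : Fin 3 → HH) : Lp (∑ k, f k) = ∑ k, Lp (f k) := by
  rw [Fin.sum_univ_three f, Lp_add, Lp_add, Fin.sum_univ_three fun k => Lp (f k)]

theorem Lp_lamV (y α : Fin 3 → ℝ) : Lp (lamV κ y α) = lam0 y := by
  rw [lamV_eq, Lp_smul, Lp_sum, lam0]
  simp only [Lp_smul, Lp_apply_ggV]

theorem Lp_lam0 (y : Fin 3 → ℝ) : Lp (lam0 y) = lam0 y := by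
  rw [lam0, Lp_smul, Lp_sum]
  simp only [Lp_smul, Lp_tv]

theorem Lp_lam_sub (y α : Fin 3 → ℝ) (k : Fin 3) :
    Lp (lamV κ y α - ggV κ α k) = lam0 y - tv k := by
  rw [Lp_sub, Lp_lamV, Lp_apply_ggV]

theorem lamYV_eq (y α : Fin 3 → ℝ) (l : Fin 3) :
    lamYV κ y α l = (1 / (y l) ^ 2 / ∑ k, 1 / y k) • (lamV κ y α - ggV κ α l) := by
  funext a
  simp only [lamYV, H562.lamY, lamV, ggV, Pi.smul_apply, Pi.sub_apply, smul_eq_mul]
  ring

/-- **The coefficient of the tori.** -/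
theorem coef_torus {v : VV} (hv : KillM 9 v) (kp : Fin 6 → Fin 3) (y α : Fin 3 → ℝ)
    (i j : Fin 3) :
    v (pl (lamAV y i) (lamAV y j) *
      ∏ k : Fin 3, pl (lamV κ y α - ggV κ α k) (mv k) ^ #{c | kp c = k}) =
      (1 / (2 * Real.pi) / y i / ∑ k, 1 / y k) * (1 / (2 * Real.pi) / y j / ∑ k, 1 / y k) *
        v (pl (mv i) (mv j) * ∏ k : Fin 3, Ak (lam0 y) k ^ #{c | kp c = k}) := by
  rw [lamAV_eq, lamAV_eq, prod_kp kp (fun k => pl (lamV κ y α - ggV κ α k) (mv k)),
    prod_kp kp (fun k => Ak (lam0 y) k),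
    torus_mod hv (inM_smul _ (inM_mv i)) (inM_smul _ (inM_mv j)) _ (fun c => mv (kp c))
      fun c => inM_mv _]
  simp only [Lp_lam_sub]
  rw [pl_smul_left, pl_smul_right, smul_smul, smul_mul_assoc, map_smul, smul_eq_mul, neg_mul_neg]
  rfl

/-- **The coefficient of the annuli**, size vector `i`, angle `i`. -/
theorem coef_annulus {v : VV} (hv : KillM 8 v) (kp : Fin 6 → Fin 3) (y α : Fin 3 → ℝ)
    (i : Fin 3) :
    v (pl (lamYV κ y α i) (lamAV y i) *
      ∏ k : Fin 3, pl (lamV κ y α - ggV κ α k) (mv k) ^ #{c | kp c = k}) =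
      -((1 / (y i) ^ 2 / ∑ k, 1 / y k) * (1 / (2 * Real.pi) / y i / ∑ k, 1 / y k)) *
        v (Ak (lam0 y) i * ∏ k : Fin 3, Ak (lam0 y) k ^ #{c | kp c = k}) := by
  rw [lamYV_eq, lamAV_eq, prod_kp kp (fun k => pl (lamV κ y α - ggV κ α k) (mv k)),
    prod_kp kp (fun k => Ak (lam0 y) k),
    annulus_mod hv (inM_smul _ (inM_mv i)) _ (fun c => mv (kp c)) fun c => inM_mv _,
    Lp_smul]
  simp only [Lp_lam_sub]
  rw [pl_smul_left, pl_smul_right, smul_smul, smul_mul_assoc, map_smul, smul_eq_mul, mul_neg]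
  rfl

end Vec

end Vale.Agent.P273.H254
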