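import Mathlib.GroupTheory.Perm.Sign
import Mathlib.Algebra.BigOperators.GroupWithZero.Finset
import Mathlib.Data.Fintype.BigOperators
import Mathlib.Data.Real.Basic
import Mathlib.Tactic

/-!
P273, row LIM-DET: evaluation of the alternating form `T(θ_1, ..., θ_q)` on the limit forms.
Pure algebra.

`DT T θ e = ∑ π, sgn π • T (j ↦ θ j (e (π j)))` is the value on the directions `e`, where
`θ j d : H` is the value of the one form of the mark `j` on the direction `d`.
-/

open Equiv Finset

namespace Vale.Agent.P273.H254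

variable {ι ι' δ H κ J G : Type*} [Fintype ι] [DecidableEq ι] [Fintype ι'] [DecidableEq ι']
  [Zero H] [AddCommGroup G]

/-- What is used of the multilinear function `T`: it vanishes if one argument vanishes, and it
is symmetric under exchange of two slots of the same kind. -/
structure SymT {K : Type*} (kind : ι → K) (T : (ι → H) → G) : Prop where
  zero : ∀ x j, x j = 0 → T x = 0
  symm : ∀ x i j, kind i = kind j → T (fun k => x (swap i j k)) = T x

/-- The value on the directions `e`. -/
def DT (T : (ι → H) → G) (θ : ι → δ → H) (e : ι → δ) : G :=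
  ∑ π : Perm ι, Perm.sign π • T (fun j => θ j (e (π j)))

omit [Zero H] in
/-- Permutation of the directions. -/
theorem DT_perm (T : (ι → H) → G) (θ : ι → δ → H) (e : ι → δ) (ρ : Perm ι) :
    DT T θ (fun j => e (ρ j)) = Perm.sign ρ • DT T θ e := by
  unfold DT
  rw [← Equiv.sum_comp (Equiv.mulLeft ρ) (fun π => Perm.sign π • T (fun j => θ j (e (π j)))),
    Finset.smul_sum]
  refine Finset.sum_congr rfl fun π _ => ?_
  simp only [Equiv.coe_mulLeft, Perm.sign_mul, Perm.mul_apply, smul_smul]
  rw [← mul_assoc, Int.units_mul_self, one_mul]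

omit [Zero H] in
/-- Renaming of the marks (`Fin 14 ≃ Bool × Fin 7`). -/
theorem DT_reindex (f : ι ≃ ι') (T : (ι → H) → G) (θ : ι → δ → H) (e : ι → δ) :
    DT T θ e = DT (fun x => T (fun j => x (f j))) (fun j => θ (f.symm j))
      (fun j => e (f.symm j)) := by
  unfold DT
  rw [← Equiv.sum_comp f.permCongr]
  refine Finset.sum_congr rfl fun π _ => ?_
  rw [Perm.sign_permCongr]
  simp [Equiv.permCongr_apply]

/-- (1) Two marks of the same kind with equal forms. -/
theorem DT_eq_zero_of_same [Module ℝ G] {K : Type*} {kind : ι → K} {T : (ι → H) → G}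
    (hT : SymT kind T)
    {θ : ι → δ → H} {i j : ι} (hij : i ≠ j) (hk : kind i = kind j) (hθ : θ i = θ j)
    (e : ι → δ) : DT T θ e = 0 := by
  have h : DT T θ e = - DT T θ e := by
    unfold DT
    conv_lhs => rw [← Equiv.sum_comp (Equiv.mulRight (swap i j))]
    rw [← Finset.sum_neg_distrib]
    refine Finset.sum_congr rfl fun π _ => ?_
    have h1 : T (fun k => θ k (e ((π * swap i j) k))) = T (fun k => θ k (e (π k))) := by
      rw [← hT.symm _ i j hk]
      congr 1
      funext k
      have h2 : (π * swap i j) (swap i j k) = π k := by simp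
      rw [h2]
      have h5 : θ (swap i j k) = θ k := by
        by_cases h3 : k = i
        · subst h3; rw [swap_apply_left]; exact hθ.symm
        · by_cases h4 : k = j
          · subst h4; rw [swap_apply_right]; exact hθ
          · rw [swap_apply_of_ne_of_ne h3 h4]
      rw [h5]
    simp only [Equiv.coe_mulRight]
    rw [h1, Perm.sign_mul, Perm.sign_swap hij]
    simp
  have h2 : (2 : ℝ) • DT T θ e = 0 := by
    rw [two_smul]
    nth_rewrite 2 [h]
    exact add_neg_cancel _
  exact (smul_eq_zero.1 h2).resolve_left two_ne_zero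

omit [Zero H] in
/-- A nonzero term. -/
theorem exists_term {T : (ι → H) → G} {θ : ι → δ → H} {e : ι → δ} (h : DT T θ e ≠ 0) :
    ∃ π : Perm ι, T (fun j => θ j (e (π j))) ≠ 0 := by
  by_contra h1
  push Not at h1
  exact h (Finset.sum_eq_zero fun π _ => by rw [h1 π, smul_zero])

section Blocks

variable [Fintype κ] [DecidableEq κ] [Fintype J] [DecidableEq J]

theorem bool3 : ∀ a b c : Bool, a ≠ b → a ≠ c → b = c := by decide

/-- The kind of a mark `(b, i)`. -/
def kd (j : Bool × J) : Bool := j.1

/-- (2) Pigeonhole. Blocks `κ` with a distinguished block `k₀` (the cores / the base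
directions); marks `Bool × J` with as many marks of each kind as blocks. `loc` = block of a
mark. If the value is nonzero, every block contains exactly one mark of each kind. -/
theorem bijective_of_ne_zero [Module ℝ G] {T : (Bool × J → H) → G} (hT : SymT kd T)
    (hJ : Fintype.card J = Fintype.card κ) (k₀ : κ) {θ : Bool × J → κ × Bool → H}
    {loc : Bool × J → κ}
    (hloc : ∀ j k b, k ≠ k₀ → loc j ≠ k → θ j (k, b) = 0)
    (hsame : ∀ i j, i.1 = j.1 → loc i = loc j → loc i ≠ k₀ → θ i = θ j)
    (e : Bool × J ≃ κ × Bool) (h : DT T θ e ≠ 0) :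
    ∀ b, Function.Bijective (fun i => loc (b, i)) := by
  obtain ⟨π, hπ⟩ := exists_term h
  -- marks of the same kind in the same cluster are equal
  have h1 : ∀ i j : Bool × J, i.1 = j.1 → loc i = loc j → loc i ≠ k₀ → i = j := by
    intro i j hk hl h0
    by_contra hij
    exact h (DT_eq_zero_of_same hT hij hk (hsame i j hk hl h0) e)
  -- the mark which takes the direction `d`
  have h2 : ∀ k b, k ≠ k₀ → loc (π.symm (e.symm (k, b))) = k := by
    intro k b hk
    by_contra hne
    refine hπ (hT.zero _ (π.symm (e.symm (k, b))) ?_)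
    simp only [Equiv.apply_symm_apply]
    exact hloc _ k b hk hne
  have h3 : ∀ b k, k ≠ k₀ → ∃ i, loc (b, i) = k := by
    intro b k hk
    obtain ⟨m0, hm0⟩ : ∃ m0, m0 = π.symm (e.symm (k, false)) := ⟨_, rfl⟩
    obtain ⟨m1, hm1⟩ : ∃ m1, m1 = π.symm (e.symm (k, true)) := ⟨_, rfl⟩
    have hne : m0 ≠ m1 := by
      intro hh
      rw [hm0, hm1] at hh
      have h5 := e.symm.injective (π.symm.injective hh)
      have h6 := congrArg Prod.snd h5
      exact Bool.noConfusion h6
    have hl0 : loc m0 = k := by rw [hm0]; exact h2 k false hk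
    have hl1 : loc m1 = k := by rw [hm1]; exact h2 k true hk
    have hkk : m0.1 ≠ m1.1 := fun hh => hne (h1 m0 m1 hh (hl0.trans hl1.symm) (by rw [hl0]; exact hk))
    by_cases hb : m0.1 = b
    · exact ⟨m0.2, by rw [← hb]; exact hl0⟩
    · have hb1 : m1.1 = b := bool3 _ _ _ hkk hb
      exact ⟨m1.2, by rw [← hb1]; exact hl1⟩
  intro b
  refine (Fintype.bijective_iff_surjective_and_card _).2 ⟨?_, hJ⟩
  intro k
  by_cases hk : k = k₀
  · subst hk
    by_contra hno
    push Not at hno
    have hinj : Function.Injective (fun i => loc (b, i)) := by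
      intro i j hij
      have := h1 (b, i) (b, j) rfl hij (hno i)
      simpa using this
    have hbij := (Fintype.bijective_iff_injective_and_card _).2 ⟨hinj, hJ⟩
    obtain ⟨i, hi⟩ := hbij.2 k
    exact hno i hi
  · exact h3 b k hk

/-- The standard bijection marks ≃ directions of a location pair `σ`. -/
def tau (σ : Bool → J ≃ κ) : Bool × J ≃ κ × Bool where
  toFun j := (σ j.1 j.2, j.1)
  invFun d := (d.2, (σ d.2).symm d.1)
  left_inv j := by simp
  right_inv d := by simp

omit [Fintype κ] [DecidableEq κ] [Fintype J] [DecidableEq J] in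
@[simp] theorem tau_apply (σ : Bool → J ≃ κ) (b : Bool) (i : J) :
    tau σ (b, i) = (σ b i, b) := rfl

/-- The global sign of the location pair `σ` and the numbering `e` of the directions. -/
def sgn (σ : Bool → J ≃ κ) (e : Bool × J ≃ κ × Bool) : ℤˣ := Perm.sign ((tau σ).trans e.symm)

omit [Fintype κ] [DecidableEq κ] in
/-- Dependence of the sign on the location pair. -/
theorem sgn_eq (σ σ₀ : Bool → J ≃ κ) (e : Bool × J ≃ κ × Bool) :
    sgn σ e = sgn σ₀ e * ∏ b, Perm.sign ((σ b).trans (σ₀ b).symm) := by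
  unfold sgn
  have h : (tau σ).trans e.symm =
      ((tau σ₀).trans e.symm) * (Equiv.prodCongrRight fun b => (σ b).trans (σ₀ b).symm) := by
    ext x <;> simp [tau]
  rw [h, Perm.sign_mul, Perm.sign_prodCongrRight]

omit [Fintype κ] in
/-- A permutation of `κ × Bool` which can only move a direction out of its block into `k₀`
preserves the blocks. -/
theorem fst_eq {k₀ : κ} {ρ : Perm (κ × Bool)}
    (h : ∀ y, (ρ y).1 ≠ k₀ → (ρ y).1 = y.1) (y : κ × Bool) : (ρ y).1 = y.1 := by
  by_cases h0 : (ρ y).1 = k₀
  · by_contra hne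
    have hk : y.1 ≠ k₀ := fun h1 => hne (by rw [h0, h1])
    have hz : ∀ b, (ρ.symm (y.1, b)).1 = y.1 := by
      intro b
      have h7 := h (ρ.symm (y.1, b)) (by rw [Equiv.apply_symm_apply]; exact hk)
      rw [Equiv.apply_symm_apply] at h7
      exact h7.symm
    have hd : ∀ b, (ρ.symm (y.1, b)).2 ≠ y.2 := by
      intro b hb
      have h2 : ρ.symm (y.1, b) = y := Prod.ext (hz b) hb
      have h3 : ρ y = (y.1, b) := by
        rw [← h2, Equiv.apply_symm_apply, h2]
      rw [h3] at h0
      exact hk h0
    have he : ρ.symm (y.1, false) ≠ ρ.symm (y.1, true) := fun hh =>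
      Bool.noConfusion (congrArg Prod.snd (ρ.symm.injective hh))
    have h4 : (ρ.symm (y.1, false)).2 ≠ (ρ.symm (y.1, true)).2 := fun hh =>
      he (Prod.ext ((hz false).trans (hz true).symm) hh)
    exact h4 (bool3 _ _ _ (hd false).symm (hd true).symm)
  · exact h y h0

/-- (3) The value: a sum over the exchanges inside the blocks. -/
theorem DT_eval {T : (Bool × J → H) → G} (hT : ∀ x j, x j = 0 → T x = 0) (k₀ : κ)
    {θ : Bool × J → κ × Bool → H} (σ : Bool → J ≃ κ)
    (hloc : ∀ b i k b', k ≠ k₀ → σ b i ≠ k → θ (b, i) (k, b') = 0)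
    (e : Bool × J ≃ κ × Bool) :
    DT T θ e = sgn σ e • ∑ s : κ → Perm Bool, (∏ k, Perm.sign (s k)) •
        T (fun j => θ j (σ j.1 j.2, s (σ j.1 j.2) j.1)) := by
  classical
  obtain ⟨g, hg⟩ : ∃ g : Perm (κ × Bool) → G, ∀ ρ, g ρ =
    Perm.sign ρ • T (fun j => θ j (ρ (tau σ j))) := ⟨_, fun _ => rfl⟩
  -- step 1 : change of variables
  have h1 : DT T θ e = sgn σ e • ∑ ρ, g ρ := by
    unfold DT sgn
    rw [Finset.smul_sum]
    -- π = tau ≫ ρ ≫ e.symm
    let F : Perm (κ × Bool) ≃ Perm (Bool × J) :=
      { toFun := fun ρ => (tau σ).trans (ρ.trans e.symm)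
        invFun := fun π => (tau σ).symm.trans (π.trans e)
        left_inv := fun ρ => by ext x <;> simp
        right_inv := fun π => by ext x <;> simp }
    rw [← Equiv.sum_comp F]
    refine Finset.sum_congr rfl fun ρ _ => ?_
    have h2 : F ρ = ((tau σ).trans e.symm).trans ((e.trans ρ).trans e.symm) := by
      ext x <;> simp [F]
    have h3 : Perm.sign (F ρ) = Perm.sign ((tau σ).trans e.symm) * Perm.sign ρ := by
      rw [h2, Perm.sign_trans, mul_comm]
      congr 1
      exact Perm.sign_trans_trans_symm ρ e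
    have h4 : (fun j => θ j (e ((F ρ) j))) = fun j => θ j (ρ (tau σ j)) := by
      funext j; simp [F]
    rw [h4, h3, hg, smul_smul]
  rw [h1]
  congr 1
  -- step 2 : only block preserving permutations
  symm
  refine Fintype.sum_of_injective (fun s : κ → Perm Bool => Equiv.prodCongrRight s) ?_ _ _ ?_ ?_
  · intro s s' hs
    funext k
    ext b
    have := congrArg (fun f => (f (k, b)).2) hs
    simpa using this
  · intro ρ hρ
    by_contra hne
    apply hρ
    have hT0 : T (fun j => θ j (ρ (tau σ j))) ≠ 0 := fun h0 => hne (by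
      rw [hg, h0, smul_zero])
    have hfst : ∀ y, (ρ y).1 = y.1 := by
      apply fst_eq (k₀ := k₀)
      intro y hy
      by_contra hyy
      apply hT0
      refine hT _ ((tau σ).symm y) ?_
      simp only [Equiv.apply_symm_apply]
      have : ρ y = ((ρ y).1, (ρ y).2) := rfl
      rw [this]
      refine hloc y.2 ((σ y.2).symm y.1) _ _ hy ?_
      simpa using fun h => hyy h.symm
    have hfst' : ∀ y, (ρ.symm y).1 = y.1 := fun y => by
      have := hfst (ρ.symm y); simpa using this.symm
    refine ⟨fun k => ⟨fun b => (ρ (k, b)).2, fun b => (ρ.symm (k, b)).2, fun b => ?_, fun b => ?_⟩, ?_⟩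
    · have h5 : (k, (ρ (k, b)).2) = ρ (k, b) := Prod.ext (hfst (k, b)).symm rfl
      simp only [h5, Equiv.symm_apply_apply]
    · have h5 : (k, (ρ.symm (k, b)).2) = ρ.symm (k, b) := Prod.ext (hfst' (k, b)).symm rfl
      simp only [h5, Equiv.apply_symm_apply]
    · ext y
      · simp [hfst]
      · simp
  · intro s
    rw [hg, Perm.sign_prodCongrRight]
    rfl

/-- The exchange (`true`) or not (`false`) as a permutation of `Bool`. -/
def bsw (c : Bool) : Perm Bool := if c then swap false true else 1

theorem bsw_apply (c b : Bool) : bsw c b = xor c b := by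
  cases c <;> cases b <;> simp [bsw]

theorem sign_bsw (c : Bool) : Perm.sign (bsw c) = if c then -1 else 1 := by
  cases c
  · simp [bsw]
  · simp [bsw]

theorem bsw_bijective : Function.Bijective bsw := by
  constructor
  · intro c c' h
    have := congrArg (fun f : Perm Bool => f false) h
    simpa [bsw_apply] using this
  · intro f
    refine ⟨f false, ?_⟩
    ext b
    rw [bsw_apply]
    cases b
    · simp
    · cases h : f false <;> cases h' : f true <;> simp
      · exact absurd (f.injective (h.trans h'.symm)) (by decide)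
      · exact absurd (f.injective (h.trans h'.symm)) (by decide)

/-- (4) The value, with one bit for every block: bit `false` = the mark of kind `b` takes the
direction `(k, b)`, bit `true` = it takes the direction `(k, !b)`. -/
theorem DT_eval_bits {T : (Bool × J → H) → G} (hT : ∀ x j, x j = 0 → T x = 0) (k₀ : κ)
    {θ : Bool × J → κ × Bool → H} (σ : Bool → J ≃ κ)
    (hloc : ∀ b i k b', k ≠ k₀ → σ b i ≠ k → θ (b, i) (k, b') = 0)
    (e : Bool × J ≃ κ × Bool) :
    DT T θ e = sgn σ e • ∑ c : κ → Bool, (∏ k, if c k then (-1 : ℤˣ) else 1) •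
        T (fun j => θ j (σ j.1 j.2, xor (c (σ j.1 j.2)) j.1)) := by
  rw [DT_eval hT k₀ σ hloc e]
  congr 1
  symm
  refine Fintype.sum_equiv (Equiv.piCongrRight fun _ : κ => Equiv.ofBijective bsw bsw_bijective)
    _ _ fun c => ?_
  simp only [Equiv.piCongrRight_apply, Pi.map_apply, Equiv.ofBijective_apply, sign_bsw,
    bsw_apply]

/-- (5) The complete statement: the value on the limit forms is zero, or there is a location
pair (one mark of each kind in every block) and the value is the sum over the bits. -/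
theorem DT_limit [Module ℝ G] {T : (Bool × J → H) → G} (hT : SymT kd T)
    (hJ : Fintype.card J = Fintype.card κ) (k₀ : κ) {θ : Bool × J → κ × Bool → H}
    {loc : Bool × J → κ}
    (hloc : ∀ j k b, k ≠ k₀ → loc j ≠ k → θ j (k, b) = 0)
    (hsame : ∀ i j, i.1 = j.1 → loc i = loc j → loc i ≠ k₀ → θ i = θ j)
    (e : Bool × J ≃ κ × Bool) :
    ((∃ σ : Bool → J ≃ κ, (∀ b i, σ b i = loc (b, i)) ∧
      DT T θ e = sgn σ e • ∑ c : κ → Bool, (∏ k, if c k then (-1 : ℤˣ) else 1) •
        T (fun j => θ j (loc j, xor (c (loc j)) j.1)))) ∨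
    ((¬ ∀ b, Function.Bijective (fun i => loc (b, i))) ∧ DT T θ e = 0) := by
  by_cases h : ∀ b, Function.Bijective (fun i => loc (b, i))
  · refine Or.inl ⟨fun b => Equiv.ofBijective _ (h b), fun b i => rfl, ?_⟩
    exact DT_eval_bits hT.zero k₀ (fun b => Equiv.ofBijective _ (h b))
      (fun b i k b' hk hne => hloc (b, i) k b' hk hne) e
  · refine Or.inr ⟨h, ?_⟩
    by_contra h0
    exact h (bijective_of_ne_zero hT hJ k₀ hloc hsame e h0)

/-- The form of `DT_limit` with fixed blocks `Option (Fin 6)` (`none` = cores / base), marks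
`Bool × Fin 7`. -/
theorem DT_limit7 [Module ℝ G] {T : (Bool × Fin 7 → H) → G} (hT : SymT kd T)
    {θ : Bool × Fin 7 → Option (Fin 6) × Bool → H}
    {loc : Bool × Fin 7 → Option (Fin 6)}
    (hloc : ∀ j (k : Fin 6) b, loc j ≠ some k → θ j (some k, b) = 0)
    (hsame : ∀ i j, i.1 = j.1 → loc i = loc j → loc i ≠ none → θ i = θ j)
    (e : Bool × Fin 7 ≃ Option (Fin 6) × Bool) :
    ((∃ σ : Bool → Fin 7 ≃ Option (Fin 6), (∀ b i, σ b i = loc (b, i)) ∧
      DT T θ e = sgn σ e • ∑ c : Option (Fin 6) → Bool,
        (∏ k, if c k then (-1 : ℤˣ) else 1) •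
        T (fun j => θ j (loc j, xor (c (loc j)) j.1)))) ∨
    ((¬ ∀ b, Function.Bijective (fun i => loc (b, i))) ∧ DT T θ e = 0) := by
  refine DT_limit hT (by simp) none (fun j k b hk hne => ?_) hsame e
  obtain ⟨k', rfl⟩ := Option.ne_none_iff_exists'.1 hk
  exact hloc j k' b hne

end Blocks

end Vale.Agent.P273.H254
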