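import Vale.Agent.P273.H254.Det
import Vale.Agent.P273.H973.Omega

/-!
P273, row LIM-DET, part 2: if `F` is killed by `q` of the `p + q` vectors, the value of
`wedgeT F T θ` is the value of `F` on the others times the value `DT` of `T(θ_1, ..., θ_q)`
on these `q` vectors.
-/

open Equiv Finset Function

namespace Vale.Agent.P273.H254

open H973

variable {E H G : Type*} [NormedAddCommGroup E] [NormedSpace ℝ E]
  [NormedAddCommGroup H] [NormedSpace ℝ H] [NormedAddCommGroup G] [NormedSpace ℝ G] {p q : ℕ}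

/-- **Split evaluation, standard position.** -/
theorem wedgeT_split (F : E [⋀^Fin p]→L[ℝ] ℝ)
    (T : ContinuousMultilinearMap ℝ (fun _ : Fin q => H) G) (θ : Fin q → E →L[ℝ] H)
    (w : Fin (p + q) → E)
    (hd : ∀ x : Fin p → Fin (p + q), (∃ i j, x i = Fin.natAdd p j) →
      F (fun i => w (x i)) = 0) :
    wedgeT F T θ w = F (fun i => w (Fin.castAdd q i)) •
      DT (fun x => T x) (fun j (d : E) => θ j d) (fun j => w (Fin.natAdd p j)) := by
  classical
  rw [wedgeT_apply]
  obtain ⟨g, hg⟩ : ∃ g : Perm (Fin (p + q)) → G, ∀ σ, g σ = Perm.sign σ •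
        (F (fun i => w (σ (Fin.castAdd q i))) • T (fun j => θ j (w (σ (Fin.natAdd p j))))) :=
    ⟨_, fun _ => rfl⟩
  have h1 : ∑ σ : Perm (Fin (p + q)), Perm.sign σ •
        (F (fun i => w (σ (Fin.castAdd q i))) • T (fun j => θ j (w (σ (Fin.natAdd p j))))) =
      ∑ ab : Perm (Fin p) × Perm (Fin q),
        g (finSumFinEquiv.permCongr (Perm.sumCongrHom (Fin p) (Fin q) ab)) := by
    symm
    refine Fintype.sum_of_injective
      (fun ab : Perm (Fin p) × Perm (Fin q) =>
        finSumFinEquiv.permCongr (Perm.sumCongrHom (Fin p) (Fin q) ab)) ?_ _ _ ?_ ?_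
    · exact finSumFinEquiv.permCongr.injective.comp Perm.sumCongrHom_injective
    · intro σ hσ
      by_contra hne
      apply hσ
      have hF : F (fun i => w (σ (Fin.castAdd q i))) ≠ 0 := fun h0 => hne (by
        rw [h0, zero_smul, smul_zero])
      have hm : Set.MapsTo (finSumFinEquiv.symm.permCongr σ)
          (Set.range (Sum.inl : Fin p → Fin p ⊕ Fin q))
          (Set.range (Sum.inl : Fin p → Fin p ⊕ Fin q)) := by
        rintro _ ⟨i, rfl⟩
        have h2 : finSumFinEquiv.symm.permCongr σ (Sum.inl i) =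
            finSumFinEquiv.symm (σ (Fin.castAdd q i)) := by
          simp [Equiv.permCongr_apply]
        rw [h2]
        rcases h3 : finSumFinEquiv.symm (σ (Fin.castAdd q i)) with a | b
        · exact ⟨a, rfl⟩
        · exfalso
          apply hF
          refine hd (fun i => σ (Fin.castAdd q i)) ⟨i, b, ?_⟩
          have h4 := congrArg finSumFinEquiv h3
          simpa using h4
      obtain ⟨ab, hab⟩ := Perm.mem_sumCongrHom_range_of_perm_mapsTo_inl hm
      refine ⟨ab, ?_⟩
      simp only
      rw [hab]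
      ext x
      simp [Equiv.permCongr_apply]
    · intro ab
      exact hg _
  rw [h1]
  have h2 : ∀ ab : Perm (Fin p) × Perm (Fin q),
      g (finSumFinEquiv.permCongr (Perm.sumCongrHom (Fin p) (Fin q) ab)) =
      F (fun i => w (Fin.castAdd q i)) • (Perm.sign ab.2 •
        T (fun j => θ j (w (Fin.natAdd p (ab.2 j))))) := by
    rintro ⟨a, b⟩
    rw [hg, Perm.sign_permCongr]
    have e0 : Perm.sumCongrHom (Fin p) (Fin q) (a, b) = Perm.sumCongr a b := rfl
    have e1 : ∀ i : Fin p, finSumFinEquiv.permCongr (Perm.sumCongrHom (Fin p) (Fin q) (a, b))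
        (Fin.castAdd q i) = Fin.castAdd q (a i) := fun i => by
      simp [Equiv.permCongr_apply]
    have e2 : ∀ j : Fin q, finSumFinEquiv.permCongr (Perm.sumCongrHom (Fin p) (Fin q) (a, b))
        (Fin.natAdd p j) = Fin.natAdd p (b j) := fun j => by
      simp [Equiv.permCongr_apply]
    simp only [e1, e2]
    rw [e0, Perm.sign_sumCongr]
    have h3 : F (fun i => w (Fin.castAdd q (a i))) =
        Perm.sign a • F (fun i => w (Fin.castAdd q i)) :=
      F.toAlternatingMap.map_perm (fun i => w (Fin.castAdd q i)) a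
    rw [h3]
    rcases Int.units_eq_one_or (Perm.sign a) with h | h <;>
      rcases Int.units_eq_one_or (Perm.sign b) with h' | h' <;> simp [h, h']
  simp only [h2]
  rw [Fintype.sum_prod_type]
  simp only
  rw [Finset.sum_const, Finset.card_univ, Fintype.card_perm,
    Fintype.card_fin, ← Nat.cast_smul_eq_nsmul ℝ, smul_smul, inv_mul_cancel₀
    (Nat.cast_ne_zero.2 p.factorial_ne_zero), one_smul, ← Finset.smul_sum]
  rfl

/-- **Split evaluation, any position.** -/
theorem wedgeT_split_perm (F : E [⋀^Fin p]→L[ℝ] ℝ)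
    (T : ContinuousMultilinearMap ℝ (fun _ : Fin q => H) G) (θ : Fin q → E →L[ℝ] H)
    (w : Fin (p + q) → E) (π : Perm (Fin (p + q)))
    (hd : ∀ x : Fin p → Fin (p + q), (∃ i j, x i = π (Fin.natAdd p j)) →
      F (fun i => w (x i)) = 0) :
    wedgeT F T θ w = Perm.sign π • (F (fun i => w (π (Fin.castAdd q i))) •
      DT (fun x => T x) (fun j (d : E) => θ j d) (fun j => w (π (Fin.natAdd p j)))) := by
  have h1 : wedgeT F T θ (w ∘ π) = Perm.sign π • wedgeT F T θ w :=
    (wedgeT F T θ).toAlternatingMap.map_perm w π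
  have h2 : wedgeT F T θ w = Perm.sign π • wedgeT F T θ (w ∘ π) := by
    rw [h1, smul_smul, Int.units_mul_self, one_smul]
  rw [h2, wedgeT_split F T θ (w ∘ π) ?_]
  · rfl
  · rintro x ⟨i, j, hx⟩
    exact hd (fun i => π (x i)) ⟨i, j, by rw [hx]⟩

/-- `F` is killed by more than `q` of the vectors: the value is zero. -/
theorem wedgeT_eq_zero_of_card (F : E [⋀^Fin p]→L[ℝ] ℝ)
    (T : ContinuousMultilinearMap ℝ (fun _ : Fin q => H) G) (θ : Fin q → E →L[ℝ] H)
    (w : Fin (p + q) → E) (P : Finset (Fin (p + q))) (hP : q < P.card)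
    (hd : ∀ x : Fin p → Fin (p + q), (∃ i, x i ∈ P) → F (fun i => w (x i)) = 0) :
    wedgeT F T θ w = 0 := by
  rw [wedgeT_apply, Finset.sum_eq_zero, smul_zero]
  intro σ _
  rw [hd (fun i => σ (Fin.castAdd q i)) ?_, zero_smul, smul_zero]
  by_contra hcon
  push Not at hcon
  have h1 : P ⊆ Finset.univ.image (fun j : Fin q => σ (Fin.natAdd p j)) := by
    intro d hd
    obtain ⟨c, rfl⟩ := σ.surjective d
    induction c using Fin.addCases with
    | left i => exact absurd hd (hcon i)
    | right j => exact Finset.mem_image.2 ⟨j, Finset.mem_univ _, rfl⟩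
  have h2 := Finset.card_le_card h1
  have h3 := Finset.card_image_le (s := (Finset.univ : Finset (Fin q)))
    (f := fun j : Fin q => σ (Fin.natAdd p j))
  rw [Finset.card_univ, Fintype.card_fin] at h3
  omega

/-- The value `DT` of the multilinear map `T` over another index type of marks. -/
theorem DT_equiv {ι : Type*} [Fintype ι] [DecidableEq ι] {δ : Type*} (f : Fin q ≃ ι)
    (T : ContinuousMultilinearMap ℝ (fun _ : Fin q => H) G) (θ : ι → δ → H) (e : ι → δ) :
    DT (fun x => T x) (fun j => θ (f j)) (fun j => e (f j)) =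
      DT (fun x : ι → H => T (fun j => x (f j))) θ e := by
  rw [DT_reindex f]
  simp

end Vale.Agent.P273.H254
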