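import Vale.Agent.P273.H254.Phase
import Vale.Agent.P273.H793.Frame

/-!
P273, row LimVal, part 1: change of frames. The gap directions `(a, true)` (size of the gap `a`),
`(a, false)` (its angle) and the cluster directions; `A a c` = derivative of the position of the
cluster `c` in the size of the gap `a` (the same for the angles).
-/

noncomputable section

namespace Vale.Agent.P273.H254

open Finset Vale.Agent.P273.H573 Vale.Agent.P273.H213 Vale.Agent.P273.H793

section General

variable {ι δ H : Type*} [Fintype ι] [DecidableEq ι] [AddCommGroup H] [Module ℝ H]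

/-- The alternating form on the direction vectors (functions of the mark). -/
def aDT (T : MultilinearMap ℝ (fun _ : ι => H) ℝ) : (ι → H) [⋀^ι]→ₗ[ℝ] ℝ :=
  MultilinearMap.alternatization (T.compLinearMap fun j => LinearMap.proj j)

theorem aDT_apply (T : MultilinearMap ℝ (fun _ : ι => H) ℝ) (X : ι → ι → H) :
    aDT T X = ∑ π : Equiv.Perm ι, Equiv.Perm.sign π • T (fun j => X (π j) j) := by
  rw [aDT, MultilinearMap.alternatization_apply]
  rfl

theorem DT_eq_aDT (T : MultilinearMap ℝ (fun _ : ι => H) ℝ) (θ : ι → δ → H) (e : ι → δ) :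
    DT (fun x => T x) θ e = aDT T (fun i j => θ j (e i)) := by
  rw [aDT_apply]; rfl

end General

/-- The directions: gaps (or clusters) with size and angle, and the two base directions. -/
abbrev Dr := (Fin 6 × Bool) ⊕ Bool

/-- The same in the order of helper793. -/
def dl : Bool ⊕ Fin 6 × Fin 2 ≃ Dr where
  toFun := Sum.elim Sum.inr fun x => Sum.inl (x.1, decide (x.2 = 0))
  invFun := Sum.elim (fun x => Sum.inr (x.1, if x.2 then 0 else 1)) Sum.inl
  left_inv := by
    rintro (b | ⟨a, c⟩)
    · rfl
    · fin_cases c <;> rfl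
  right_inv := by
    rintro (⟨a, b⟩ | b)
    · cases b <;> rfl
    · rfl

variable {H : Type*} [AddCommGroup H] [Module ℝ H]

/-- The forms of the marks on the gap directions. -/
def thG (loc : Bool × Fin 7 → Option (Fin 6)) (A : Matrix (Fin 6) (Fin 6) ℝ) (P Q : Fin 6 → H)
    (bs : Bool × Fin 7 → Bool → H) (j : Bool × Fin 7) : Dr → H
  | Sum.inl (a, true) => ∑ c, if loc j = some c then A a c • P c else 0
  | Sum.inl (a, false) => ∑ c, if loc j = some c then A a c • Q c else 0
  | Sum.inr b => bs j b

/-- The complex direction of a cluster. -/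
def ec (loc : Bool × Fin 7 → Option (Fin 6)) (P Q : Fin 6 → H) (c : Fin 6) :
    ℂ →ₗ[ℝ] (Bool × Fin 7 → H) where
  toFun z j := if loc j = some c then (-z.re) • P c + z.im • Q c else 0
  map_add' z w := by
    funext j
    by_cases h : loc j = some c
    · simp only [h, if_true, Pi.add_apply, Complex.add_re, Complex.add_im, neg_add, add_smul]
      abel
    · simp [h]
  map_smul' r z := by
    funext j
    by_cases h : loc j = some c
    · simp only [h, if_true, Pi.smul_apply, Complex.smul_re, Complex.smul_im, smul_add, smul_smul,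
        smul_eq_mul, RingHom.id_apply, mul_neg]
    · simp [h]

theorem thG_eq (loc : Bool × Fin 7 → Option (Fin 6)) (A : Matrix (Fin 6) (Fin 6) ℝ)
    (P Q : Fin 6 → H) (bs : Bool × Fin 7 → Bool → H) (s : Bool ⊕ Fin 6 × Fin 2) :
    (fun j => thG loc A P Q bs j (dl s)) = Sum.elim (fun b j => bs j b)
      (fru univ (chg (A.map Complex.ofReal) (ec loc P Q))) s := by
  rcases s with b | ⟨a, c⟩
  · rfl
  · fin_cases c
    · funext j
      simp only [dl, Equiv.coe_fn_mk, Sum.elim_inr, fru, chg_apply, thG, Finset.sum_apply,
        Fin.zero_eta, Finset.mem_univ, true_and, if_true, decide_true]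
      refine Finset.sum_congr rfl fun c _ => ?_
      simp [ec]
    · funext j
      simp only [dl, Equiv.coe_fn_mk, Sum.elim_inr, fru, chg_apply, Finset.sum_apply,
        Fin.mk_one, Fin.isValue, one_ne_zero, and_false, if_false, decide_false, thG, cI_one]
      refine Finset.sum_congr rfl fun c _ => ?_
      simp [ec]

/-- **Change of frames**: gap directions -> cluster directions. -/
theorem DT_frames (T : MultilinearMap ℝ (fun _ : Bool × Fin 7 => H) ℝ)
    (loc : Bool × Fin 7 → Option (Fin 6)) (A : Matrix (Fin 6) (Fin 6) ℝ)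
    (P Q : Fin 6 → H) (bs : Bool × Fin 7 → Bool → H) (e : Bool × Fin 7 ≃ Dr) :
    DT (fun x => T x) (thG loc A P Q bs) e =
      A.det ^ 2 * DT (fun x => T x) (thG loc 1 P Q bs) e := by
  have key : ∀ A : Matrix (Fin 6) (Fin 6) ℝ, DT (fun x => T x) (thG loc A P Q bs) e =
      A.det ^ 2 * aDT T (Sum.elim (fun b j => bs j b) (fr (ec loc P Q)) ∘
        (dl.trans e.symm).symm) := by
    intro A
    rw [DT_eq_aDT]
    have h1 : (fun i j => thG loc A P Q bs j (e i)) = Sum.elim (fun b j => bs j b)
        (fru univ (chg (A.map Complex.ofReal) (ec loc P Q))) ∘ (dl.trans e.symm).symm := by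
      funext i
      have := thG_eq loc A P Q bs (dl.symm (e i))
      rw [Equiv.apply_symm_apply] at this
      exact this
    rw [h1, frame_eq_polar (dl.trans e.symm) (aDT T) (ec loc P Q) (A.map Complex.ofReal) univ
      (fun b j => bs j b) (fun b j => bs j b) 0 (fun k => by rw [vert_apply]; simp)]
    have h2 : (A.map Complex.ofReal).det = (A.det : ℂ) :=
      (RingHom.map_det Complex.ofRealHom A).symm
    rw [h2, Complex.norm_real, Real.norm_eq_abs, sq_abs, smul_eq_mul, Finset.card_univ,
      Fintype.card_fin, Even.neg_one_pow (show Even 6 by decide), one_mul]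
  rw [key A, key 1, Matrix.det_one, one_pow, one_mul]

end Vale.Agent.P273.H254
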