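import Vale.Agent.P273.H254.Val

/-!
P273, row LIM-VAL-W: the phases of the necks drop out of the limit value.
(T) tori: the coefficient kills the monomials with at least 9 factors in `M = <e1, e2>`.
(A) annuli: the coefficient is invariant under the half twist of the pair.
-/

noncomputable section

namespace Vale.Agent.P273.H254

open MvPolynomial Finset Vale.Agent.P273.H573 Vale.Agent.P273.H213

/-! ## (T) Tori -/

/-- The vector lies in `M`. -/
def InM (x : HH) : Prop := x 1 = 0 ∧ x 3 = 0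

/-- The class modulo `M`. -/
def Lp (x : HH) : HH := ![0, x 1, 0, x 3]

/-- The part in `M`. -/
def Mp (x : HH) : HH := ![x 0, 0, x 2, 0]

theorem Lp_add_Mp (x : HH) : Lp x + Mp x = x := by
  funext i; fin_cases i <;> simp [Lp, Mp]

theorem inM_Mp (x : HH) : InM (Mp x) := by constructor <;> simp [Mp]

theorem Lp_add_of_inM {x m : HH} (hm : InM m) : Lp (x + m) = Lp x := by
  funext i; fin_cases i <;> simp [Lp, hm.1, hm.2]

theorem inM_mv (k : Fin 3) : InM (mv k) := by
  fin_cases k <;> constructor <;> simp [mv]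

theorem inM_smul (c : ℝ) {m : HH} (hm : InM m) : InM (c • m) := by
  constructor <;> simp [hm.1, hm.2]

theorem inM_add {m m' : HH} (hm : InM m) (hm' : InM m') : InM (m + m') := by
  constructor <;> simp [hm.1, hm.2, hm'.1, hm'.2]

theorem pl_hom (x y : HH) : (pl x y).IsHomogeneous 1 := by
  have h : ∀ (c : ℝ) (i : Fin 5), (C c * X i : RR).IsHomogeneous 1 := fun c i => by
    have := (isHomogeneous_C (Fin 5) c).mul (isHomogeneous_X ℝ i)
    simpa using this
  unfold pl
  exact ((((h _ _).add (h _ _)).add (h _ _)).add (h _ _)).add (h _ _)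

theorem pl_wt_MM {x y : HH} (hx : InM x) (hy : InM y) : (pl x y).IsWeightedHomogeneous wM 2 := by
  have h : pl x y = C (x 0 * y 2 - x 2 * y 0) * X 0 := by
    simp [pl, hx.1, hx.2, hy.1, hy.2]
  rw [h]
  have := (isWeightedHomogeneous_C wM (x 0 * y 2 - x 2 * y 0)).mul
    (isWeightedHomogeneous_X ℝ wM 0)
  simpa [wM] using this

theorem pl_wt_LM (x : HH) {y : HH} (hy : InM y) :
    (pl (Lp x) y).IsWeightedHomogeneous wM 1 := by
  have h : pl (Lp x) y = C (-(x 3 * y 0)) * X 1 + C (x 1 * y 2) * X 2 +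
      C (-(x 1 * y 0) + x 3 * y 2) * X 4 := by
    simp [pl, Lp, hy.1, hy.2]
  have h1 : ∀ (c : ℝ) (i : Fin 5), wM i = 1 → (C c * X i : RR).IsWeightedHomogeneous wM 1 :=
    fun c i hi => by
      have := (isWeightedHomogeneous_C wM c).mul (isWeightedHomogeneous_X ℝ wM i)
      rw [hi, zero_add] at this
      exact this
  rw [h]
  exact ((h1 _ 1 rfl).add (h1 _ 2 rfl)).add (h1 _ 4 rfl)

/-- **(T)** Only the classes modulo `M` count. -/
theorem torus_mod {v : VV} (hv : KillM 9 v) {d0 d1 : HH} (h0 : InM d0) (h1 : InM d1)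
    (x m : Fin 6 → HH) (hm : ∀ c, InM (m c)) :
    v (pl d0 d1 * ∏ c, pl (x c) (m c)) = v (pl d0 d1 * ∏ c, pl (Lp (x c)) (m c)) := by
  classical
  have h2 : ∏ c, pl (x c) (m c) = ∏ c, (pl (Lp (x c)) (m c) + pl (Mp (x c)) (m c)) :=
    Finset.prod_congr rfl fun c _ => by rw [← pl_add_left, Lp_add_Mp]
  rw [h2, Finset.prod_add, Finset.mul_sum, map_sum,
    Finset.sum_eq_single_of_mem (univ : Finset (Fin 6)) (Finset.mem_powerset.2 subset_rfl)]
  · rw [Finset.sdiff_self, Finset.prod_empty, mul_one]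
  · intro t _ ht
    have hc : 1 ≤ (univ \ t).card := by
      rw [Nat.one_le_iff_ne_zero, Ne, Finset.card_eq_zero, Finset.sdiff_eq_empty_iff_subset]
      intro h
      exact ht (Finset.eq_univ_iff_forall.2 fun c => h (Finset.mem_univ c))
    have hs : t.card + (univ \ t).card = 6 := by
      have := Finset.card_sdiff_add_card_eq_card (Finset.subset_univ t)
      rw [Finset.card_univ, Fintype.card_fin] at this
      omega
    refine kill_of_hom (m := 2 + (∑ c ∈ t, 1 + ∑ c ∈ univ \ t, 2)) hv ?_ ?_ ?_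
    · have h3 := (pl_hom d0 d1).mul ((IsHomogeneous.prod t _ (fun _ => 1)
        fun c _ => pl_hom (Lp (x c)) (m c)).mul (IsHomogeneous.prod (univ \ t) _ (fun _ => 1)
        fun c _ => pl_hom (Mp (x c)) (m c)))
      have h4 : 1 + (∑ _c ∈ t, 1 + ∑ _c ∈ univ \ t, 1) = 7 := by
        simp only [Finset.sum_const, smul_eq_mul, mul_one]
        omega
      rw [h4] at h3
      exact h3
    · exact (pl_wt_MM h0 h1).mul ((IsWeightedHomogeneous.prod t _ _
        fun c _ => pl_wt_LM (x c) (hm c)).mul (IsWeightedHomogeneous.prod (univ \ t) _ _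
        fun c _ => pl_wt_MM (inM_Mp (x c)) (hm c)))
    · simp only [Finset.sum_const, smul_eq_mul, mul_one]
      omega

/-- The product over the clusters, sorted by necks. -/
theorem prod_kp {R : Type*} [CommMonoid R] (kp : Fin 6 → Fin 3) (f : Fin 3 → R) :
    ∏ k : Fin 3, f k ^ #{c | kp c = k} = ∏ c, f (kp c) := by
  rw [← Finset.prod_fiberwise univ kp]
  refine Finset.prod_congr rfl fun k _ => ?_
  rw [← Finset.prod_const]
  refine Finset.prod_congr rfl fun c hc => ?_
  rw [(Finset.mem_filter.1 hc).2]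

/-- **(T), literal form.** `lam = lam0 + mu`, `tt k = t_k + mu_k` with `mu, mu_k` in `M`. -/
theorem torus_value {v : VV} (hv : KillM 9 v) {d0 d1 : HH} (h0 : InM d0) (h1 : InM d1)
    (kp : Fin 6 → Fin 3) (lam0 mu : HH) (hmu : InM mu) (ta : Fin 3 → HH) (mus : Fin 3 → HH)
    (hmus : ∀ k, InM (mus k)) (mm : Fin 3 → HH) (hmm : ∀ k, InM (mm k)) :
    v (pl d0 d1 * ∏ k : Fin 3, pl (lam0 + mu - (ta k + mus k)) (mm k) ^ #{c | kp c = k}) =
      v (pl d0 d1 * ∏ k : Fin 3, pl (lam0 - ta k) (mm k) ^ #{c | kp c = k}) := by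
  rw [prod_kp kp (fun k => pl (lam0 + mu - (ta k + mus k)) (mm k)),
    prod_kp kp (fun k => pl (lam0 - ta k) (mm k)),
    torus_mod hv h0 h1 _ (fun c => mm (kp c)) fun c => hmm _,
    torus_mod hv h0 h1 (fun c => lam0 - ta (kp c)) (fun c => mm (kp c)) fun c => hmm _]
  refine congrArg (fun z => v (pl d0 d1 * z)) (Finset.prod_congr rfl fun c _ => ?_)
  have h2 : lam0 + mu - (ta (kp c) + mus (kp c)) = (lam0 - ta (kp c)) +
      (mu + (-1 : ℝ) • mus (kp c)) := by
    rw [neg_one_smul]; abel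
  rw [h2, Lp_add_of_inM (inM_add hmu (inM_smul _ (hmus _)))]

/-- The centre of the classes. -/
def lam3 : HH := (1 / 3 : ℝ) • ∑ k, tv k

/-- **(T), at the theta torus**: phases `s k` (turns) of the necks, `lam` = mean of the
`t_k + s_k m_k`. -/
theorem torus_lit {v : VV} (hv : KillM 9 v) (kp : Fin 6 → Fin 3) (i j : Fin 3) (c0 c1 : ℝ)
    (s : Fin 3 → ℝ) :
    v (pl (c0 • mv i) (c1 • mv j) * ∏ k : Fin 3,
      pl ((1 / 3 : ℝ) • ∑ l, (tv l + s l • mv l) - (tv k + s k • mv k)) (mv k) ^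
        #{c | kp c = k}) =
      c0 * c1 * v (pl (mv i) (mv j) * ∏ k : Fin 3, Ak lam3 k ^ #{c | kp c = k}) := by
  have h1 : (1 / 3 : ℝ) • ∑ l, (tv l + s l • mv l) = lam3 + (1 / 3 : ℝ) • ∑ l, s l • mv l := by
    rw [lam3, Finset.sum_add_distrib, smul_add]
  have h2 : InM ((1 / 3 : ℝ) • ∑ l, s l • mv l) := by
    rw [Fin.sum_univ_three]
    exact inM_smul _ (inM_add (inM_add (inM_smul _ (inM_mv 0)) (inM_smul _ (inM_mv 1)))
      (inM_smul _ (inM_mv 2)))
  rw [h1, torus_value hv (inM_smul _ (inM_mv i)) (inM_smul _ (inM_mv j)) kp lam3 _ h2 tv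
    (fun k => s k • mv k) (fun k => inM_smul _ (inM_mv k)) mv inM_mv, pl_smul_left,
    pl_smul_right, smul_smul, smul_mul_assoc, map_smul, smul_eq_mul]
  rfl

/-! ## (A) Annuli -/

/-- The half twist of the pair of the neck. -/
def kt : Fin 3 → Fin 5 := ![0, 2, 4]

/-- The symplectic form. -/
def om (x y : HH) : ℝ := (x 0 * y 1 - x 1 * y 0) + (x 2 * y 3 - x 3 * y 2)

/-- The one parameter group of the half twist. -/
def Tg (i : Fin 3) (s : ℝ) (x : HH) : HH := x + (s * om (mv i) x) • mv i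

/-- The linear part of the half twist on the bivectors. -/
def nl (i : Fin 3) (j : Fin 5) : RR := sub (kt i) j - X j

/-- The one parameter group on the polynomials. -/
def gR (i : Fin 3) (s : ℝ) : RR →ₐ[ℝ] RR := aeval fun j => X j + C s * nl i j

theorem gR_X (i : Fin 3) (s : ℝ) (j : Fin 5) : gR i s (X j) = X j + C s * nl i j := by
  simp [gR]

theorem gR_pl (i : Fin 3) (s : ℝ) (x y : HH) : gR i s (pl x y) = pl (Tg i s x) (Tg i s y) := by
  have hC : ∀ (r : ℝ), gR i s (C r) = C r := fun r => by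
    simp [gR, MvPolynomial.algHom_C]
  simp only [pl, map_add, map_mul, hC, gR_X]
  fin_cases i <;>
    simp [nl, kt, sub, Tg, om, mv, map_sub, map_add, map_mul] <;> ring

theorem sR_nl (i : Fin 3) (j : Fin 5) : sR (kt i) (nl i j) = nl i j := by
  have hX : ∀ k, sR (kt i) (X k) = sub (kt i) k := fun k => by simp [sR]
  have h2 : sR (kt i) 2 = 2 := map_ofNat _ 2
  rw [nl, map_sub, hX]
  fin_cases i <;> fin_cases j <;>
    simp only [kt, sub, Fin.isValue, Fin.mk_zero, Fin.mk_one, Fin.reduceFinMk, Matrix.cons_val,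
      map_add, map_sub, map_mul] at hX h2 ⊢ <;> simp only [hX, h2, Fin.isValue, Matrix.cons_val] <;>
      ring

theorem gR_zero (i : Fin 3) (p : RR) : gR i 0 p = p := by
  have : gR i 0 = AlgHom.id ℝ RR := by
    apply MvPolynomial.algHom_ext
    intro j
    simp [gR_X]
  rw [this]; rfl

theorem gR_succ (i : Fin 3) (s : ℝ) (p : RR) : gR i (s + 1) p = sR (kt i) (gR i s p) := by
  have : gR i (s + 1) = (sR (kt i)).comp (gR i s) := by
    apply MvPolynomial.algHom_ext
    intro j
    have hX : sR (kt i) (X j) = X j + nl i j := by simp [sR, nl]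
    have hC : sR (kt i) (C s) = C s := by simp [sR, MvPolynomial.algHom_C]
    rw [AlgHom.comp_apply, gR_X, gR_X, map_add (sR (kt i)), map_mul (sR (kt i)), hX, hC, sR_nl,
      map_add, map_one]
    ring
  rw [this]; rfl

theorem inv_nat {i : Fin 3} {v : VV} (hv : sV (kt i) v = v) (n : ℕ) (p : RR) :
    v (gR i n p) = v p := by
  induction n with
  | zero => rw [Nat.cast_zero, gR_zero]
  | succ n ih =>
    rw [Nat.cast_succ, gR_succ, ← sV_apply, hv, ih]

/-- The polynomial in the parameter. -/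
def gP (i : Fin 3) : RR →ₐ[ℝ] Polynomial RR :=
  aeval fun j => Polynomial.C (X j) + Polynomial.X * Polynomial.C (nl i j)

theorem eval_gP (i : Fin 3) (s : ℝ) (p : RR) : Polynomial.eval (C s) (gP i p) = gR i s p := by
  have h : ((Polynomial.aeval (C s : RR)).restrictScalars ℝ).comp (gP i) = gR i s := by
    apply MvPolynomial.algHom_ext
    intro j
    rw [AlgHom.comp_apply, gR_X, gP, aeval_X, AlgHom.restrictScalars_apply, map_add, map_mul,
      Polynomial.aeval_C, Polynomial.aeval_C, Polynomial.aeval_X]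
    rfl
  rw [← h, AlgHom.comp_apply, AlgHom.restrictScalars_apply, Polynomial.coe_aeval_eq_eval]

/-- Integer invariance is real invariance. -/
theorem inv_real {i : Fin 3} {v : VV} (hv : sV (kt i) v = v) (s : ℝ) (p : RR) :
    v (gR i s p) = v p := by
  obtain ⟨f, hf⟩ : ∃ f : Polynomial ℝ, ∀ s : ℝ, f.eval s = v (gR i s p) := by
    refine ⟨∑ n ∈ Finset.range ((gP i p).natDegree + 1),
      Polynomial.C (v ((gP i p).coeff n)) * Polynomial.X ^ n, fun s => ?_⟩
    rw [Polynomial.eval_finsetSum, ← eval_gP, Polynomial.eval_eq_sum_range, map_sum]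
    refine Finset.sum_congr rfl fun n _ => ?_
    have h1 : (gP i p).coeff n * (C s : RR) ^ n = (s ^ n) • (gP i p).coeff n := by
      rw [← map_pow, mul_comm, MvPolynomial.smul_eq_C_mul]
    rw [h1, map_smul, smul_eq_mul, Polynomial.eval_mul, Polynomial.eval_C, Polynomial.eval_pow,
      Polynomial.eval_X, mul_comm]
  have h2 : f = Polynomial.C (v p) := by
    apply Polynomial.eq_of_infinite_eval_eq
    refine (Set.infinite_range_of_injective (Nat.cast_injective (R := ℝ))).mono ?_
    rintro _ ⟨n, rfl⟩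
    simp only [Set.mem_ofPred_eq, Polynomial.eval_C, hf, inv_nat hv]
  rw [← hf s, h2, Polynomial.eval_C]

/-- The mean of the two other classes. -/
def tb (i : Fin 3) : HH := (1 / 2 : ℝ) • (∑ k, tv k - tv i)

/-- The bivector `(tb_i - t_i) ^ m_i`. -/
def A0 (i : Fin 3) : RR := pl (tb i - tv i) (mv i)

/-- `lam` on the annulus: weight `t` on the neck `i`, phase `s`. -/
def lamA (i : Fin 3) (t s : ℝ) : HH := t • (tv i + s • mv i) + (1 - t) • tb i

/-- The classes of the necks on the annulus. -/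
def gA (i : Fin 3) (s : ℝ) (k : Fin 3) : HH := tv k + if k = i then s • mv i else 0

theorem Tg_mv (i k : Fin 3) (s : ℝ) : Tg i s (mv k) = mv k := by
  have : om (mv i) (mv k) = 0 := by
    fin_cases i <;> fin_cases k <;> simp [om, mv]
  rw [Tg, this, mul_zero, zero_smul, add_zero]

theorem Tg_smul (i : Fin 3) (s c : ℝ) (x : HH) : Tg i s (c • x) = c • Tg i s x := by
  have : om (mv i) (c • x) = c * om (mv i) x := by simp [om]; ring
  rw [Tg, Tg, this, smul_add, smul_smul]
  congr 2; ring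

theorem Tg_lam (i k : Fin 3) (t s : ℝ) :
    Tg i s (lamA i t 0 - tv k) = lamA i t s - gA i s k := by
  funext l
  fin_cases i <;> fin_cases k <;> fin_cases l <;>
    simp [Tg, lamA, gA, om, mv, tv, tb, Fin.sum_univ_three] <;> ring

theorem Tg_d (i : Fin 3) (s : ℝ) : Tg i s (tv i - tb i) = tv i + s • mv i - tb i := by
  funext l
  fin_cases i <;> fin_cases l <;>
    simp [Tg, om, mv, tv, tb, Fin.sum_univ_three] <;> ring

/-- **(A), literal form.** -/
theorem annulus_lit {i : Fin 3} {v : VV} (hv : sV (kt i) v = v) (kp : Fin 6 → Fin 3)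
    (c0 c1 t s : ℝ) :
    v (pl (c0 • (tv i + s • mv i - tb i)) (c1 • mv i) *
      ∏ k : Fin 3, pl (lamA i t s - gA i s k) (mv k) ^ #{c | kp c = k}) =
      -(c0 * c1) * v (A0 i * ∏ k : Fin 3, Ak (lamA i t 0) k ^ #{c | kp c = k}) := by
  have h1 : v (pl (c0 • (tv i + s • mv i - tb i)) (c1 • mv i) *
      ∏ k : Fin 3, pl (lamA i t s - gA i s k) (mv k) ^ #{c | kp c = k}) =
      v (pl (c0 • (tv i - tb i)) (c1 • mv i) * ∏ k : Fin 3, Ak (lamA i t 0) k ^
        #{c | kp c = k}) := by
    rw [← inv_real hv s (pl (c0 • (tv i - tb i)) (c1 • mv i) * _), map_mul (gR i s),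
      map_prod (gR i s), gR_pl, Tg_smul, Tg_smul, Tg_mv, Tg_d]
    refine congrArg (fun z => v (pl (c0 • (tv i + s • mv i - tb i)) (c1 • mv i) * z))
      (Finset.prod_congr rfl fun k _ => ?_)
    rw [map_pow, Ak, gR_pl, Tg_mv, Tg_lam]
  rw [h1, pl_smul_left, pl_smul_right, smul_smul, smul_mul_assoc, map_smul, smul_eq_mul,
    ← neg_sub (tb i) (tv i), ← neg_one_smul ℝ (tb i - tv i), pl_smul_left, neg_one_smul,
    neg_mul, map_neg, A0]
  ring

end Vale.Agent.P273.H254
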