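import Vale.Agent.P273.H573.Skel
import Vale.Agent.P273.H254.Coef

/-!
P273, (S7) of helper573's skeleton: the values `DTc`.
-/

noncomputable section

namespace Vale.Agent.P273.H254

open Finset Vale.Agent.P273.H573 Vale.Agent.P273.H213 Vale.Agent.P273.H95

/-- slots and marks -/
def sm : Fin 14 ≃ Bool × Fin 7 where
  toFun i := if h : (i : ℕ) < 7 then (true, ⟨i, h⟩) else (false, ⟨i - 7, by omega⟩)
  invFun x := if x.1 then ⟨x.2, by omega⟩ else ⟨x.2 + 7, by omega⟩
  left_inv i := by
    by_cases h : (i : ℕ) < 7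
    · simp [h]
    · have : (i : ℕ) - 7 + 7 = i := by omega
      simp [h, this]
  right_inv x := by
    obtain ⟨b, i⟩ := x
    cases b
    · have : ¬ ((i : ℕ) + 7 < 7) := by omega
      simp
    · simp

theorem mrk_sm (i : Fin 14) : mrk i = ((sm i).2, (sm i).1) := by
  unfold mrk sm
  by_cases h : (i : ℕ) < 7
  · simp [h]
  · simp [h]

theorem sm_symm_true (i : Fin 7) : sm.symm (true, i) = ⟨i, by omega⟩ := rfl

theorem sm_symm_false (i : Fin 7) : sm.symm (false, i) = ⟨i + 7, by omega⟩ := rfl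

/-! ## The graded parts -/

theorem grT_apply (n : ℕ) (T : MT) (x : Fin 14 → H4) :
    grT n T x = ∑ τ ∈ (univ : Finset (Finset (Fin 14))).filter (fun τ => τ.card = n),
      T fun j => if j ∈ τ then pA (x j) else pM (x j) := by
  unfold grT
  rw [_root_.sum_apply]
  refine Finset.sum_congr rfl fun τ _ => ?_
  rw [ContinuousMultilinearMap.compContinuousLinearMap_apply]
  congr 1
  funext j
  by_cases h : j ∈ τ <;> simp [h]

/-- On pure vectors the graded part is the form or zero. -/
theorem grT_pure (n : ℕ) (T : MT) (x : Fin 14 → H4) (A : Finset (Fin 14)) (hA : A.card = n)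
    (h1 : ∀ j ∈ A, pA (x j) = x j ∧ pM (x j) = 0) (h2 : ∀ j ∉ A, pA (x j) = 0 ∧ pM (x j) = x j) :
    grT n T x = T x := by
  rw [grT_apply, Finset.sum_eq_single_of_mem A (by simp [hA])]
  · congr 1
    funext j
    by_cases h : j ∈ A
    · rw [if_pos h, (h1 j h).1]
    · rw [if_neg h, (h2 j h).2]
  · intro τ _ hτ
    obtain ⟨j, hj⟩ : ∃ j, ¬ (j ∈ τ ↔ j ∈ A) := by
      by_contra h
      push Not at h
      exact hτ (Finset.ext h)
    refine T.map_coord_zero j ?_
    by_cases hj1 : j ∈ τ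
    · have hj2 : j ∉ A := fun h => hj ⟨fun _ => h, fun _ => hj1⟩
      rw [if_pos hj1, (h2 j hj2).1]
    · have hj2 : j ∈ A := by
        by_contra h
        exact hj ⟨fun h' => absurd h' hj1, fun h' => absurd h' h⟩
      rw [if_neg hj1, (h1 j hj2).2]

theorem grT_symm (n : ℕ) {T : MT} (hT : H95.SymT T) : H95.SymT (grT n T) := by
  intro a b hab v
  rw [grT_apply, grT_apply]
  refine Finset.sum_nbij' (fun τ => τ.map (Equiv.swap a b).toEmbedding)
    (fun τ => τ.map (Equiv.swap a b).toEmbedding) ?_ ?_ ?_ ?_ ?_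
  · intro τ hτ
    simpa using hτ
  · intro τ hτ
    simpa using hτ
  · intro τ _
    ext x
    simp
  · intro τ _
    ext x
    simp
  · intro τ _
    rw [← hT a b hab fun j => if j ∈ τ.map (Equiv.swap a b).toEmbedding then pA (v j) else
      pM (v j)]
    congr 1
    funext j
    have h : (Equiv.swap a b j ∈ τ.map (Equiv.swap a b).toEmbedding) ↔ j ∈ τ := by simp
    simp only [h]

/-- The form on the marks. -/
def TMk (T : MT) (x : Bool × Fin 7 → H4) : ℝ := T fun i => x (sm i)

theorem TMk_mtV (v : VV) (x : Bool × Fin 7 → H4) : TMk (H503.mtV v) x = TM v x := by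
  rw [TMk, H503.mtV_apply, TM]
  congr 1
  funext i
  rcases i with i | i
  · fin_cases i <;> rfl
  · fin_cases i <;> rfl

theorem TMk_zero (T : MT) (x : Bool × Fin 7 → H4) (j : Bool × Fin 7) (h : x j = 0) :
    TMk T x = 0 := by
  refine T.map_coord_zero (sm.symm j) ?_
  rw [Equiv.apply_symm_apply]
  exact h

theorem TMk_symT {T : MT} (hT : H95.SymT T) : SymT (kd (J := Fin 7)) (TMk T) where
  zero := TMk_zero T
  symm := by
    intro x i j h
    unfold TMk
    have h1 : (mrk (sm.symm i)).2 = (mrk (sm.symm j)).2 := by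
      rw [mrk_sm, mrk_sm, Equiv.apply_symm_apply, Equiv.apply_symm_apply]
      exact h
    have h0 : ∀ k, Equiv.swap i j (sm k) = sm (Equiv.swap (sm.symm i) (sm.symm j) k) := by
      intro k
      by_cases h2 : sm k = i
      · have h3 : k = sm.symm i := by rw [← h2, Equiv.symm_apply_apply]
        rw [h2, h3, Equiv.swap_apply_left, Equiv.swap_apply_left, Equiv.apply_symm_apply]
      · by_cases h3 : sm k = j
        · have h4 : k = sm.symm j := by rw [← h3, Equiv.symm_apply_apply]
          rw [h3, h4, Equiv.swap_apply_right, Equiv.swap_apply_right, Equiv.apply_symm_apply]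
        · rw [Equiv.swap_apply_of_ne_of_ne h2 h3, Equiv.swap_apply_of_ne_of_ne]
          · exact fun h4 => h2 (by rw [h4, Equiv.apply_symm_apply])
          · exact fun h4 => h3 (by rw [h4, Equiv.apply_symm_apply])
    rw [← hT (sm.symm i) (sm.symm j) h1 fun i => x (sm i)]
    congr 1
    funext k
    exact congrArg x (h0 k)

/-! ## Two forms which agree on the swaps -/

theorem DT_congr {κ : Type*} [Fintype κ] [DecidableEq κ] {T T' : (Bool × Fin 7 → H4) → ℝ}
    (hT : ∀ x j, x j = 0 → T x = 0) (hT' : ∀ x j, x j = 0 → T' x = 0) (k₀ : κ)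
    {θ : Bool × Fin 7 → κ × Bool → H4} (σ : Bool → Fin 7 ≃ κ)
    (hloc : ∀ b i k b', k ≠ k₀ → σ b i ≠ k → θ (b, i) (k, b') = 0)
    (e : Bool × Fin 7 ≃ κ × Bool)
    (h : ∀ c : κ → Bool, T (fun j => θ j (σ j.1 j.2, xor (c (σ j.1 j.2)) j.1)) =
      T' (fun j => θ j (σ j.1 j.2, xor (c (σ j.1 j.2)) j.1))) :
    DT T θ e = DT T' θ e := by
  rw [DT_eval_bits hT k₀ σ hloc e, DT_eval_bits hT' k₀ σ hloc e]
  simp only [h]

theorem pA_apply (x : H4) : pA x = ![0, x 1, 0, x 3] := by
  funext a; fin_cases a <;> simp [pA]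

theorem pM_apply (x : H4) : pM x = ![x 0, 0, x 2, 0] := by
  funext a; fin_cases a <;> simp [pM]

/-- The vector is on `f1, f2` (`true`) or on `e1, e2` (`false`). -/
def Pure (b : Bool) (x : H4) : Prop := if b then x 0 = 0 ∧ x 2 = 0 else x 1 = 0 ∧ x 3 = 0

theorem Pure.tr {x : H4} (h : Pure true x) : pA x = x ∧ pM x = 0 := by
  have h1 : x 0 = 0 ∧ x 2 = 0 := h
  rw [pA_apply, pM_apply]
  constructor <;> (funext a; fin_cases a <;> simp [h1.1, h1.2])

theorem Pure.fa {x : H4} (h : Pure false x) : pA x = 0 ∧ pM x = x := by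
  have h1 : x 1 = 0 ∧ x 3 = 0 := h
  rw [pA_apply, pM_apply]
  constructor <;> (funext a; fin_cases a <;> simp [h1.1, h1.2])

theorem Pure.smul {b : Bool} {x : H4} (h : Pure b x) (c : ℝ) : Pure b (c • x) := by
  cases b
  · have h1 : x 1 = 0 ∧ x 3 = 0 := h
    exact (show (c • x) 1 = 0 ∧ (c • x) 3 = 0 by simp [h1.1, h1.2])
  · have h1 : x 0 = 0 ∧ x 2 = 0 := h
    exact (show (c • x) 0 = 0 ∧ (c • x) 2 = 0 by simp [h1.1, h1.2])

/-- The type of the direction: sizes of clusters are on `f1, f2`, angles on `e1, e2`. -/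
def tD (fl : Bool → Bool) : Option (Fin 6) × Bool → Bool
  | (some _, b) => !b
  | (none, b) => fl b

/-- **The graded part does nothing on the arguments of the limit.** -/
theorem grT_swap (n : ℕ) (T : MT) (fl : Bool → Bool)
    (hn : (univ.filter fun d => tD fl d = true).card = n)
    {θ : Bool × Fin 7 → Option (Fin 6) × Bool → H4} (σ : Bool → Fin 7 ≃ Option (Fin 6))
    (hθ : ∀ j b', Pure (tD fl (σ j.1 j.2, b')) (θ j (σ j.1 j.2, b')))
    (c : Option (Fin 6) → Bool) :
    TMk (grT n T) (fun j => θ j (σ j.1 j.2, xor (c (σ j.1 j.2)) j.1)) =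
      TMk T (fun j => θ j (σ j.1 j.2, xor (c (σ j.1 j.2)) j.1)) := by
  unfold TMk
  let Φ : Fin 14 ≃ Option (Fin 6) × Bool :=
    sm.trans ((tau σ).trans (Equiv.prodCongrRight fun k => bsw (c k)))
  have hΦ : ∀ i, Φ i = (σ (sm i).1 (sm i).2, xor (c (σ (sm i).1 (sm i).2)) (sm i).1) := by
    intro i
    simp only [Φ, Equiv.trans_apply]
    change ((tau σ (sm i)).1, bsw (c (tau σ (sm i)).1) (tau σ (sm i)).2) = _
    rw [bsw_apply]
    rfl
  have h1 : ∀ i, Pure (tD fl (Φ i)) (θ (sm i) (σ (sm i).1 (sm i).2,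
      xor (c (σ (sm i).1 (sm i).2)) (sm i).1)) := by
    intro i
    rw [hΦ]
    exact hθ _ _
  refine grT_pure n T _ (univ.filter fun i => tD fl (Φ i) = true) ?_ ?_ ?_
  · rw [← hn]
    refine Finset.card_equiv Φ fun i => ?_
    simp
  · intro i hi
    have h2 := h1 i
    rw [(Finset.mem_filter.1 hi).2] at h2
    exact h2.tr
  · intro i hi
    have h2 := h1 i
    have h3 : tD fl (Φ i) = false := by
      have : ¬ tD fl (Φ i) = true := fun h => hi (Finset.mem_filter.2 ⟨Finset.mem_univ _, h⟩)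
      simpa using this
    rw [h3] at h2
    exact h2.fa

theorem card_tD_torus : (univ.filter fun d => tD (fun _ => false) d = true).card = 6 := by
  decide

theorem card_tD_annulus : (univ.filter fun d => tD (fun b => !b) d = true).card = 7 := by
  decide

end Vale.Agent.P273.H254
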