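import Vale.Agent.P273.H254.ValS

/-!
P273, (S7) of helper573's skeleton: the value of `T` on the clusters and the base.
-/

noncomputable section

namespace Vale.Agent.P273.H254

open Finset Vale.Agent.P273.H573 Vale.Agent.P273.H213 Vale.Agent.P273.H95

/-- The vectors of the blocks. -/
def Dw (kp : Fin 6 → Fin 3) (y : Fin 3 → ℝ) (lam : HH) (l : Bool → HH) :
    Option (Fin 6) → Bool → HH
  | some c, true => (1 / Real.pi) • H25.mm (kp c)
  | some c, false => (2 / y (kp c)) • (H25.tt (kp c) - lam)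
  | none, b => l b

theorem pure_mm (k : Fin 3) : Pure false (H25.mm k) := by
  fin_cases k <;> exact (show _ ∧ _ by constructor <;> simp [H25.mm])

theorem pure_tt (k : Fin 3) : Pure true (H25.tt k) := by
  fin_cases k <;> exact (show _ ∧ _ by constructor <;> simp [H25.tt])

theorem Pure.add {b : Bool} {x y : H4} (h : Pure b x) (h' : Pure b y) : Pure b (x + y) := by
  cases b
  · have h1 : x 1 = 0 ∧ x 3 = 0 := h
    have h2 : y 1 = 0 ∧ y 3 = 0 := h'
    exact (show (x + y) 1 = 0 ∧ (x + y) 3 = 0 by simp [h1.1, h1.2, h2.1, h2.2])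
  · have h1 : x 0 = 0 ∧ x 2 = 0 := h
    have h2 : y 0 = 0 ∧ y 2 = 0 := h'
    exact (show (x + y) 0 = 0 ∧ (x + y) 2 = 0 by simp [h1.1, h1.2, h2.1, h2.2])

theorem Pure.sub {b : Bool} {x y : H4} (h : Pure b x) (h' : Pure b y) : Pure b (x - y) := by
  rw [sub_eq_add_neg, ← neg_one_smul ℝ y]
  exact h.add (h'.smul _)

theorem pure_lamV (y : Fin 3 → ℝ) : Pure true (H573.lamV y) := by
  unfold H573.lamV
  rw [Fin.sum_univ_three (fun k => (1 / y k) • H25.tt k)]
  exact ((((pure_tt 0).smul _).add ((pure_tt 1).smul _)).add ((pure_tt 2).smul _)).smul _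

/-- **The value**, any numbering `e` of the directions. -/
theorem DT_val {w : VV} (hw : PlV w) (n : ℕ) (fl : Bool → Bool)
    (hn : (univ.filter fun d => tD fl d = true).card = n) (kp : Fin 6 → Fin 3) (y : Fin 3 → ℝ)
    (lam : HH) (hlam : Pure true lam) (l : Bool → HH) (hl : ∀ b, Pure (fl b) (l b)) (s : Bool → ℝ)
    {θ : Bool × Fin 7 → Option (Fin 6) × Bool → HH} (σ : Bool → Fin 7 ≃ Option (Fin 6))
    (hloc : ∀ b i k b', σ b i ≠ some k → θ (b, i) (some k, b') = 0)
    (hA : ∀ b i c, σ b i = some c → θ (b, i) (some c, true) = (1 / Real.pi) • H25.mm (kp c))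
    (hS : ∀ b i c, σ b i = some c →
      θ (b, i) (some c, false) = (2 / y (kp c)) • (H25.tt (kp c) - lam))
    (hc : ∀ b i b', σ b i = none → θ (b, i) (none, b') = s b • l b')
    (e : Bool × Fin 7 ≃ Option (Fin 6) × Bool) :
    DT (TMk (grT n (H503.mtV w))) θ e = -(sgn σ e • (s true * s false * (Nat.factorial 8 : ℝ) *
      (∏ c, 2 / (Real.pi * y (kp c))) *
      w (pl (l false) (l true) *
        ∏ k : Fin 3, pl (lam - H25.tt k) (H25.mm k) ^ #{c | kp c = k}))) := by
  have hD : ∀ b i b', θ (b, i) (σ b i, b') =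
      (if σ b i = none then s b else 1) • Dw kp y lam l (σ b i) b' := by
    intro b i b'
    rcases h : σ b i with _ | c
    · rw [if_pos rfl, hc b i b' h]
      rfl
    · rw [if_neg (by simp), one_smul]
      cases b'
      · exact hS b i c h
      · exact hA b i c h
  have hT : DT (TMk (grT n (H503.mtV w))) θ e = DT (TM w) θ e := by
    refine DT_congr (TMk_zero _) (TM_zero w) none σ (fun b i k b' hk hne => ?_) e fun c => ?_
    · obtain ⟨k', rfl⟩ := Option.ne_none_iff_exists'.1 hk
      exact hloc b i k' b' hne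
    · rw [grT_swap n (H503.mtV w) fl hn σ ?_ c, TMk_mtV]
      rintro ⟨b, i⟩ b'
      simp only
      rw [hD]
      refine Pure.smul ?_ _
      rcases h : σ b i with _ | c
      · exact hl b'
      · cases b'
        · exact ((pure_tt _).sub hlam).smul _
        · exact (pure_mm _).smul _
  rw [hT, DT_TM hw σ hloc (Dw kp y lam l) (fun j => if σ j.1 j.2 = none then s j.1 else 1)
    hD e]
  have h1 : (∏ j : Bool × Fin 7, if σ j.1 j.2 = none then s j.1 else 1) = s true * s false := by
    rw [Fintype.prod_prod_type, Fintype.prod_bool]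
    have h2 : ∀ b, (∏ i : Fin 7, if σ b i = none then s b else 1) = s b := fun b => by
      rw [Equiv.prod_comp (σ b) (fun k => if k = none then s b else 1)]
      simp
    rw [h2, h2]
  have h3 : (∏ k, pl (Dw kp y lam l k true) (Dw kp y lam l k false)) =
      -((∏ c, 2 / (Real.pi * y (kp c))) • (pl (l false) (l true) *
        ∏ k : Fin 3, pl (lam - H25.tt k) (H25.mm k) ^ #{c | kp c = k})) := by
    rw [Fintype.prod_option]
    have h4 : ∀ c : Fin 6, pl (Dw kp y lam l (some c) true)
        (Dw kp y lam l (some c) false) =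
        (2 / (Real.pi * y (kp c))) • pl (lam - H25.tt (kp c)) (H25.mm (kp c)) := by
      intro c
      change pl ((1 / Real.pi) • H25.mm (kp c)) ((2 / y (kp c)) • (H25.tt (kp c) - lam)) = _
      rw [pl_smul_left, pl_smul_right, smul_smul, pl_swap, ← neg_sub lam (H25.tt (kp c)),
        ← neg_one_smul ℝ (lam - H25.tt (kp c)), pl_smul_left, neg_one_smul, neg_neg]
      congr 1
      rw [div_mul_eq_div_div, div_eq_mul_inv, div_eq_mul_inv, div_eq_mul_inv]
      ring
    have h6 : (∏ c : Fin 6, pl (Dw kp y lam l (some c) true)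
        (Dw kp y lam l (some c) false)) = (∏ c, 2 / (Real.pi * y (kp c))) •
        ∏ k : Fin 3, pl (lam - H25.tt k) (H25.mm k) ^ #{c | kp c = k} := by
      rw [prod_kp kp (fun k => pl (lam - H25.tt k) (H25.mm k)),
        Finset.prod_congr rfl fun c _ => h4 c]
      simp only [Algebra.smul_def]
      rw [Finset.prod_mul_distrib, ← map_prod]
    rw [h6]
    change pl (l true) (l false) * _ = _
    rw [mul_smul_comm, pl_swap (l false) (l true), neg_mul, smul_neg]
  rw [h1, h3, map_neg, map_smul, smul_eq_mul]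
  rcases Int.units_eq_one_or (sgn σ e) with h | h
  · rw [h, one_smul, one_smul]; ring
  · rw [h, Units.neg_smul, Units.neg_smul, one_smul, one_smul]; ring

/-! ## The sign of the standard numbering -/

/-- pairs of slots -/
def pr : Fin 14 ≃ Fin 7 × Bool where
  toFun i := (⟨i / 2, by omega⟩, decide ((i : ℕ) % 2 = 1))
  invFun x := ⟨2 * x.1 + (if x.2 then 1 else 0), by
    have := x.1.2
    split_ifs <;> omega⟩
  left_inv i := by
    apply Fin.ext
    have := Nat.div_add_mod (i : ℕ) 2
    rcases Nat.mod_two_eq_zero_or_one (i : ℕ) with h | h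
    · simp only [h]
      simp
      omega
    · simp only [h]
      simp
      omega
  right_inv x := by
    obtain ⟨⟨i, hi⟩, b⟩ := x
    cases b
    · simp
    · simp
      omega

/-- The standard numbering. -/
def es (μ : Fin 7 ≃ Option (Fin 6)) : Bool × Fin 7 ≃ Option (Fin 6) × Bool :=
  sm.symm.trans (pr.trans (μ.prodCongr (Equiv.refl Bool)))

theorem sign_std : Equiv.Perm.sign
    ((Equiv.prodComm Bool (Fin 7)).trans (pr.symm.trans sm) : Equiv.Perm (Bool × Fin 7)) = 1 := by
  decide +kernel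

theorem sgn_es (σ : Bool → Fin 7 ≃ Option (Fin 6)) (μ : Fin 7 ≃ Option (Fin 6)) :
    sgn σ (es μ) = ∏ b, Equiv.Perm.sign ((σ b).trans μ.symm) := by
  rw [sgn_eq σ (fun _ => μ) (es μ)]
  have h : sgn (fun _ => μ) (es μ) = 1 := by
    unfold sgn
    rw [← sign_std]
    congr 1
    ext x : 1
    obtain ⟨b, i⟩ := x
    simp [es]
  rw [h, one_mul]

/-- The sign for marks at the locations `E (ρ b i)`. -/
theorem sgn_es_perm (ρ : Bool → Equiv.Perm (Fin 7)) (E μ : Fin 7 ≃ Option (Fin 6)) :
    sgn (fun b => (ρ b).trans E) (es μ) = Equiv.Perm.sign (ρ true) * Equiv.Perm.sign (ρ false) := by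
  rw [sgn_es, Fintype.prod_bool]
  have h : ∀ b, Equiv.Perm.sign (((ρ b).trans E).trans μ.symm) =
      Equiv.Perm.sign (E.trans μ.symm) * Equiv.Perm.sign (ρ b) := fun b => by
    rw [Equiv.trans_assoc]
    exact Equiv.Perm.sign_mul (E.trans μ.symm) (ρ b)
  rw [h, h]
  have h2 : Equiv.Perm.sign (E.trans μ.symm) * Equiv.Perm.sign (E.trans μ.symm) = 1 :=
    Int.units_mul_self _
  calc _ = (Equiv.Perm.sign (E.trans μ.symm) * Equiv.Perm.sign (E.trans μ.symm)) *
        (Equiv.Perm.sign (ρ true) * Equiv.Perm.sign (ρ false)) := by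
        rw [mul_mul_mul_comm]
    _ = _ := by rw [h2, one_mul]

end Vale.Agent.P273.H254
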